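import Vale.Agent.P004K.Heeg
import Vale.Agent.P004K.Rc.All

/-! # P014X: complex multiplication on the algebraic points -/

set_option autoImplicit false
set_option linter.all false

open NumberField IsDedekindDomain
open scoped Classical ComplexConjugate

noncomputable section

namespace Vale.Agent.P014X.Cs

open Vale.Agent.P022 P027H P027M.M P004K P004K.Rc
open P004M.TE (Pt ga Cv pa pa_inj)

/-- the uniformisation -/
structure Uf (A B : ℤ) (Λ : Submodule ℤ ℂ) (ex : ℂ →+ (Cv ℂ (A : ℚ) (B : ℚ)).Point) : Prop where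
  lat : IsLat Λ
  e2 : g2 Λ = -4 * A
  e3 : g3 Λ = -4 * B
  sur : Function.Surjective ex
  ker : ∀ z, ex z = 0 ↔ z ∈ Λ
  un : ∀ z (y : Pt A B), Un Λ z y ↔ ex z = pa io y

variable {A B : ℤ} {Λ : Submodule ℤ ℂ} {ex : ℂ →+ (Cv ℂ (A : ℚ) (B : ℚ)).Point}

theorem ex_uf (h : IsLat Λ) (h2 : g2 Λ = -4 * A) (h3 : g3 Λ = -4 * B) : ∃ ex, Uf A B Λ ex :=
  let ⟨ex, a, b, c⟩ := Hg.un_iff h h2 h3
  ⟨ex, h, h2, h3, a, b, c⟩

/-- `act e` is the multiplication by `J e` -/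
def Ac {O : Type} [CommRing O] (J : O →+* ℂ) (ex : ℂ →+ (Cv ℂ (A : ℚ) (B : ℚ)).Point)
    (act : O →+* AddMonoid.End (Pt A B)) : Prop :=
  ∀ e z y, ex z = pa io y → ex (J e * z) = pa io (act e y)

section

variable {O : Type} [CommRing O] {J : O →+* ℂ} {ω : O} {s : O →+* O}

theorem kl1 (k : KL J 1 Λ) (a : O) {z : ℂ} (h : z ∈ Λ) : J a * z ∈ Λ := by
  simpa using k.mul a z h

theorem sub_lat (q : Qd J ω s) (k : KL J 1 Λ) :
    ∃ w ∈ Λ, w ≠ 0 ∧ ∃ n : ℕ, 0 < n ∧ ∀ z ∈ Λ, ∃ x, n * z = J x * w := by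
  obtain ⟨w, τ, H⟩ := ex_lat k.lat
  have w1 : w ∈ Λ := by simpa using (H.2 1).1 (one_lat τ)
  have a := hom_scl H.1 (Oc J 1)
  obtain ⟨n, n0, e⟩ := fin_index (a.isLat (q.kl_Oc one_pos).lat) k.lat fun z hz => by
    obtain ⟨x, -, e⟩ := mem_Oc.1 hz
    exact mem_of_eq (kl1 k x w1) (by rw [e]; field_simp [H.1])
  refine ⟨w, w1, H.1, n, n0, fun z hz => ?_⟩
  obtain ⟨x, -, e⟩ := mem_Oc.1 (e z hz)
  exact ⟨x, by rw [e]; field_simp [H.1]⟩

theorem end_J [IsDomain O] [IsIntegrallyClosed O] (q : Qd J ω s) (k : KL J 1 Λ) {c : ℂ}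
    (h : ∀ w ∈ Λ, c * w ∈ Λ) : ∃ y, J y = c := by
  obtain ⟨w, w1, w0, n, n0, e⟩ := sub_lat q k
  obtain ⟨x, e⟩ := e _ (h w w1)
  exact q.end_int k.lat h (n := n) (by exact_mod_cast n0.ne') (x := x)
    (mul_right_cancel₀ w0 (by rw [← e]; push_cast; ring))

theorem ex_gen [IsPrincipalIdealRing O] (q : Qd J ω s) (k : KL J 1 Λ) :
    ∃ v : ℂ, v ≠ 0 ∧ ∀ z, z ∈ Λ ↔ ∃ x, z = J x * v := by
  obtain ⟨w, w1, w0, n, n0, e⟩ := sub_lat q k
  have n1 : (n : ℂ) ≠ 0 := Nat.cast_ne_zero.2 n0.ne'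
  let I : Ideal O :=
    { carrier := {x | J x * (w / n) ∈ Λ}
      add_mem' := fun a b => mem_of_eq (add_mem a b) (by rw [map_add, add_mul])
      zero_mem' := mem_of_eq (zero_mem _) (by rw [map_zero, zero_mul])
      smul_mem' := fun c x a => mem_of_eq (kl1 k c a) (by rw [smul_eq_mul, map_mul, mul_assoc]) }
  obtain ⟨α, hα⟩ := (IsPrincipalIdealRing.principal I).principal
  have m (x : O) : J x * (w / n) ∈ Λ ↔ α ∣ x := by
    rw [← Ideal.mem_span_singleton, ← Ideal.submodule_span_eq, ← hα]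
    rfl
  have g (z) (hz : z ∈ Λ) : ∃ x, z = J x * (J α * (w / n)) := by
    obtain ⟨x, e⟩ := e z hz
    have e' : z = J x * (w / n) := by rw [← mul_div_assoc, ← e]; field_simp
    obtain ⟨y, rfl⟩ := (m x).1 (e' ▸ hz)
    exact ⟨y, by rw [e', map_mul]; ring⟩
  refine ⟨_, fun c => ?_, fun z => ⟨g z, fun ⟨x, e⟩ => e ▸ kl1 k x ((m α).2 dvd_rfl)⟩⟩
  obtain ⟨x, e⟩ := g w w1
  exact w0 (by rw [e, c, mul_zero])

theorem unit_pow [IsDomain O] (q : Qd J ω s) {e : O} (h : IsUnit e) : e ^ 12 = 1 := by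
  obtain ⟨k, a⟩ := q.nm e
  obtain ⟨t, b⟩ := q.tr e
  obtain ⟨f, c⟩ := h.exists_right_inv
  obtain ⟨k', a'⟩ := q.nm f
  have a1 := congrArg J a
  have b1 := congrArg (fun x => (J x).re) b
  simp only [map_mul, map_add, q.cj, map_intCast, Complex.mul_conj, Complex.add_re,
    Complex.conj_re, Complex.intCast_re] at a1 b1
  have a2 : Complex.normSq (J e) = k := by exact_mod_cast a1
  have k1 : k = 1 := Int.eq_one_of_mul_eq_one_right (b := k')
    (by exact_mod_cast a2 ▸ Complex.normSq_nonneg (J e)) (q.cast_inj (by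
      have := congrArg s c
      rw [map_mul, map_one] at this
      push_cast
      linear_combination -(k' : O) * a - e * s e * a' + s e * s f * c + this))
  rw [k1, Complex.normSq_apply] at a2
  have t2 : (t : ℝ) ^ 2 ≤ 4 := by
    rw [← b1]
    push_cast at a2
    nlinarith [mul_self_nonneg (J e).im]
  have t3 : t ^ 2 ≤ 4 := by exact_mod_cast t2
  have p : e ^ 2 - t * e + 1 = 0 := by rw [k1] at a; push_cast at a; linear_combination e * b - a
  have t4 : -2 ≤ t := by nlinarith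
  have t5 : t ≤ 2 := by nlinarith
  interval_cases t <;> push_cast at p
  · rw [eq_neg_of_add_eq_zero_left (pow_eq_zero_iff two_ne_zero |>.1
      (show (e + 1) ^ 2 = 0 by linear_combination p))]
    norm_num
  · linear_combination (e - 1) * (e ^ 3 + 1) * (e ^ 6 + 1) * p
  · linear_combination (e ^ 2 - 1) * (e ^ 8 + e ^ 4 + 1) * p
  · linear_combination (e + 1) * (e ^ 3 - 1) * (e ^ 6 + 1) * p
  · rw [sub_eq_zero.1 (pow_eq_zero_iff two_ne_zero |>.1
      (show (e - 1) ^ 2 = 0 by linear_combination p)), one_pow]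

end

namespace Uf

variable (U : Uf A B Λ ex) {z w : ℂ} {y : Pt A B} {σ : ℂ ≃+* ℂ} {g : GQ} {φ : ℂ → ℂ}
include U

theorem eq_iff : ex z = ex w ↔ z - w ∈ Λ := by rw [← U.ker, map_sub, sub_eq_zero]

theorem el : 4 * A ^ 3 + 27 * B ^ 2 ≠ 0 := fun e => U.lat.disc_ne (by
  have := congrArg (Int.cast : ℤ → ℂ) e
  push_cast at this
  rw [U.e2, U.e3]
  linear_combination this)

theorem tr (σ : ℂ ≃+* ℂ) : ∃ φ, Tr (σ : ℂ →+* ℂ) Λ Λ φ := Hq.ex_tr U.lat U.e2 U.e3 σ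

theorem gal (e : Ex σ g) (t : Tr (σ : ℂ →+* ℂ) Λ Λ φ) (h : ex z = pa io y) :
    ex (φ z) = pa io (ga g y) :=
  (U.un _ _).1 ((P004K.un A B Λ U.lat U.e2 U.e3).2.2 z y σ g φ ((U.un _ _).2 h) e t)

theorem mul {c : ℂ} (a : IsAlgebraic ℚ c) (hc : ∀ w ∈ Λ, c * w ∈ Λ) (h : ex z = pa io y) :
    ∃ y', ex (c * z) = pa io y' := by
  have k (σ : ℂ ≃+* ℂ) (f : ∀ a, IsAlgebraic ℚ a → σ a = a) :
      σ (wp Λ (c * z)) = wp Λ (c * z) ∧ σ (dwp Λ (c * z)) = dwp Λ (c * z) := by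
    obtain ⟨φ, t⟩ := U.tr σ
    have e1 := U.gal (g := 1) (fun a => f _ (alg_io a)) t h
    rw [Hq.ga_one, ← h, U.eq_iff] at e1
    have e2 := ((tp_tr t).cm hc).2 z
    rw [f c a] at e2
    have e3 : φ (c * z) - c * z ∈ Λ := mem_of_eq (add_mem e2 (hc _ e1)) (by ring)
    exact ⟨(t.wp _).symm.trans (U.lat.wp_congr e3), (t.dwp _).symm.trans (U.lat.dwp_congr e3)⟩
  refine (Hq.ex_pt U.lat U.e2 U.e3 U.el fun _ =>
    ⟨Gm.alg_of_fin (Set.finite_singleton _) fun σ f => (k σ f).1,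
      Gm.alg_of_fin (Set.finite_singleton (dwp Λ (c * z) / 2)) fun σ f => ?_⟩).imp
        fun _ => (U.un _ _).1
  rw [map_div₀, map_ofNat, (k σ f).2]
  rfl

theorem tor {n : ℕ} (n0 : 0 < n) (h : n * z ∈ Λ) : ∃ y, ex z = pa io y := by
  have a (k : ℤ) : IsAlgebraic ℚ (-4 * k : ℂ) := by exact_mod_cast isAlgebraic_int (R := ℚ) (A := ℂ) (-4 * k)
  have b := Gm.alg_wp U.lat (U.e2 ▸ a A) (U.e3 ▸ a B) ⟨n, n0, h⟩
  refine (Hq.ex_pt U.lat U.e2 U.e3 U.el fun m => ⟨b, .of_pow two_pos ?_⟩).imp fun _ => (U.un _ _).1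
  rw [show (dwp Λ z / 2) ^ 2 = wp Λ z ^ 3 + (A * wp Λ z + B) by
    linear_combination U.lat.ode m / 4 - wp Λ z / 4 * U.e2 - U.e3 / 4]
  exact (b.pow 3).add (((isAlgebraic_int A).mul b).add (isAlgebraic_int B))

variable {O : Type} [CommRing O] {J : O →+* ℂ} {act : O →+* AddMonoid.End (Pt A B)}

theorem ex_act (k : KL J 1 Λ) (a : ∀ e, IsAlgebraic ℚ (J e)) : ∃ act, Ac J ex act := by
  have (e : O) (y : Pt A B) : ∃ y', ∀ z, ex z = pa io y → ex (J e * z) = pa io y' := by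
    obtain ⟨z, h⟩ := U.sur (pa io y)
    refine (U.mul (a e) (fun _ => kl1 k e) h).imp fun y' h' w hw => .trans (U.eq_iff.2 ?_) h'
    exact mem_of_eq (kl1 k e (U.eq_iff.1 (hw.trans h.symm))) (by ring)
  choose f hf using this
  choose p hp using fun y : Pt A B => U.sur (pa io y)
  refine ⟨{ toFun := fun e => AddMonoidHom.mk' (f e) fun y y' => pa_inj io ?_
            map_one' := AddMonoidHom.ext fun y => pa_inj io ?_
            map_mul' := fun e e' => AddMonoidHom.ext fun y => pa_inj io ?_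
            map_zero' := AddMonoidHom.ext fun y => pa_inj io ?_
            map_add' := fun e e' => AddMonoidHom.ext fun y => pa_inj io ?_ }, fun e z y => hf e y z⟩
  · rw [map_add, ← hf e y _ (hp y), ← hf e y' _ (hp y'), ← map_add, ← mul_add,
      hf e (y + y') _ (by rw [map_add, map_add, hp, hp])]
  · exact (hf 1 y _ (hp y)).symm.trans (by rw [map_one, one_mul, hp]; rfl)
  · exact (hf _ y _ (hp y)).symm.trans (by
      rw [map_mul J, mul_assoc]; exact hf e _ _ (hf e' y _ (hp y)))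
  · exact (hf 0 y _ (hp y)).symm.trans (by rw [map_zero, zero_mul, map_zero]; exact (map_zero _).symm)
  · exact (hf _ y _ (hp y)).symm.trans (by
      rw [map_add, add_mul, map_add, hf e y _ (hp y), hf e' y _ (hp y), ← map_add]; rfl)

variable (H : Ac J ex act)
include H

theorem act_ga (k : KL J 1 Λ) (e : Ex σ g) {a a' : O} (h : σ (J a) = J a') (y : Pt A B) :
    ga g (act a y) = act a' (ga g y) := by
  obtain ⟨z, hz⟩ := U.sur (pa io y)
  obtain ⟨φ, t⟩ := U.tr σ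
  refine pa_inj io ((U.gal e t (H a z y hz)).symm.trans (.trans (U.eq_iff.2 ?_)
    (H a' _ _ (U.gal e t hz))))
  exact h ▸ ((tp_tr t).cm fun _ => kl1 k a).2 z

theorem act_zero (h : ex z = pa io y) (a : O) : act a y = 0 ↔ J a * z ∈ Λ := by
  rw [← U.ker, H a z y h, ← (pa_inj io).eq_iff, map_zero]

/-- the points killed by `m` -/
theorem gen [IsDomain O] {ω : O} {s : O →+* O} (q : Qd J ω s) {v : ℂ} (v0 : v ≠ 0)
    (hv : ∀ z, z ∈ Λ ↔ ∃ x, z = J x * v) {m : O} (m0 : m ≠ 0) : ∃ T, ex (v / J m) = pa io T ∧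
      (∀ e, act e T = 0 ↔ m ∣ e) ∧ ∀ y, act m y = 0 → ∃ e, act e T = y := by
  have m1 := q.J_ne m0
  obtain ⟨n, n0, x, e⟩ := q.ex_int (I := Ideal.span {m}) (by simpa using m0) |>.imp
    fun n k => k.imp_right Ideal.mem_span_singleton.1
  obtain ⟨T, hT⟩ := U.tor (z := v / J m) (n := n.natAbs ^ 2) (by positivity) ((hv _).2
    ⟨n * x, by
      have := congrArg J e
      rw [← Int.cast_natCast, Nat.cast_pow, Int.natAbs_sq]
      simp only [map_mul, map_intCast] at this ⊢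
      push_cast
      field_simp
      linear_combination this⟩)
  refine ⟨T, hT, fun e => ?_, fun y hy => ?_⟩
  · rw [U.act_zero H hT, hv]
    refine exists_congr fun x => ?_
    rw [← q.inj.eq_iff, map_mul, ← mul_div_assoc, div_eq_iff m1, mul_right_comm, mul_left_inj' v0,
      mul_comm]
  · obtain ⟨z, hz⟩ := U.sur (pa io y)
    obtain ⟨x, e⟩ := (hv _).1 ((U.act_zero H hz m).1 hy)
    exact ⟨x, pa_inj io ((H x _ _ hT).symm.trans (.trans (congrArg ex (by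
      rw [← mul_div_assoc, ← e]; field_simp)) hz))⟩

end Uf

variable {K : Type} [Field K] [NumberField K] {j : K →+* Qb} {ω : 𝓞 K} {s : 𝓞 K →+* 𝓞 K}
  {act : 𝓞 K →+* AddMonoid.End (Pt A B)} {g : GQ}

theorem alg_J (e : 𝓞 K) : IsAlgebraic ℚ (JJ j e) := alg_io _

theorem cj_of (iq : Iq K) (q : Qd (JJ j) ω s) (hg : g ∉ GK j) (a : 𝓞 K) : g (j a) = j (s a) := by
  obtain ⟨k, e⟩ := ex_g starRingAut
  have k1 : k ∉ GK j := fun h => q.im.ne' (Complex.conj_eq_iff_im.1 (e.JJ h ω))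
  have k2 : k (j a) = j (s a) := P004K.io_inj ((e _).symm.trans (q.cj a).symm)
  have := H916.mul_inv_mem j iq.two hg k1 (s a)
  rwa [AlgEquiv.mul_apply, show k⁻¹ (j (s a)) = j a from k.symm_apply_eq.2 k2.symm] at this

/-- **the main theorem of complex multiplication on the points** -/
theorem frob (U : Uf A B Λ ex) (H : Ac (JJ j) ex act) (iq : Iq K) (kl : KL (JJ j) 1 Λ)
    (hg : g ∈ GK j) {P : Ideal (𝓞 Qb)} (hP : P.IsPrime) (P0 : below j P ≠ ⊥) (k : ℕ)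
    (h : ∀ x : 𝓞 Qb, g • x - x ^ Ideal.absNorm (below j P) ^ k ∈ P) :
    ∃ π, Ideal.span {π} = below j P ^ k ∧
      ∀ a ∉ below j P, ∀ y, act a y = 0 → ga g y = act π y := by
  obtain ⟨ω, s, q⟩ := qd j iq
  obtain ⟨σ, e⟩ := ex_ex g
  obtain ⟨ψ, t, hψ⟩ := x_mt K j iq σ ⟨g, hg⟩ e P hP (below_ne P0) k h 1 Λ
    (fun c => hP.ne_top ((Ideal.eq_top_iff_one _).2 (by simpa [below] using c))) kl
  obtain ⟨μ, t⟩ := tp_iff.1 t
  obtain ⟨φ, t'⟩ := U.tr σ
  obtain ⟨u1, u2⟩ := t.uniq (tq_tr t')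
  rw [div_one] at u1 u2
  have I0 := pow_ne_zero k P0
  generalize below j P ^ k = I at *
  obtain ⟨π, rfl⟩ := end_J q kl (c := μ) fun w m => (u1.2 w).1 (le_st m)
  refine ⟨π, le_antisymm ?_ fun a m => ?_, fun a m y hy => ?_⟩
  · obtain ⟨n, n0, en⟩ := q.mul_cj I0
    have n1 : (n : ℂ) ≠ 0 := Int.cast_ne_zero.2 n0
    have c0 : I.comap s ≠ 0 := fun c => n0 (q.cast_inj (by
      rw [c, mul_zero, eq_comm, Ideal.zero_eq_bot, Ideal.span_singleton_eq_bot] at en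
      simpa using en))
    rw [← Ideal.dvd_iff_le, ← mul_dvd_mul_iff_right c0, Ideal.dvd_iff_le, en,
      Ideal.span_singleton_mul_le_iff]
    intro b hb
    obtain ⟨x, ex⟩ := end_J q kl (c := JJ j π * (JJ j b / n)) fun w m =>
      mem_of_eq ((u1.2 (JJ j b / n * w)).1 fun a ha _ => by
        obtain ⟨c, ec⟩ := Ideal.mem_span_singleton.1 (en ▸ Ideal.mul_mem_mul ha hb)
        have := congrArg (JJ j) ec
        rw [map_mul, map_mul, map_intCast] at this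
        exact mem_of_eq (kl1 kl c m) (by field_simp; linear_combination w * this)) (by ring)
    exact Ideal.mem_span_singleton.2 ⟨x, q.inj (by
      rw [map_mul, map_mul, ex, map_intCast]; field_simp)⟩
  · obtain ⟨x, ex⟩ := end_J q kl (c := JJ j a * (JJ j π)⁻¹) fun w hw =>
      mem_of_eq ((u1.symm.2 w).1 hw a m fun _ => kl1 kl a) (by ring)
    exact Ideal.mem_span_singleton.2 ⟨x, q.inj (by rw [map_mul, ex]; field_simp [u1.1])⟩
  · obtain ⟨z, hz⟩ := U.sur (pa io y)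
    refine pa_inj io ((U.gal e t' hz).symm.trans (.trans (U.eq_iff.2 ?_) (H π z y hz)))
    exact mem_of_eq (add_mem (u2 z) ((u1.2 _).1 (hψ z ⟨a, m, (U.act_zero H hz a).1 hy⟩))) (by ring)

/-- the class number is one -/
theorem pid (U : Uf A B Λ ex) (iq : Iq K) (kl : KL (JJ j) 1 Λ) : IsPrincipalIdealRing (𝓞 K) :=
  .of_prime_ne_bot fun I hI I0 => by
    obtain ⟨act, H⟩ := U.ex_act kl alg_J
    obtain ⟨P, g, a, b, c⟩ := H651.exists_frI j ⟨I, hI, I0⟩
    obtain ⟨π, e, -⟩ := frob U H iq kl g.2 a (b ▸ I0) 1 (by simpa [b] using c)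
    exact ⟨π, by rw [Ideal.submodule_span_eq, e, b, pow_one]⟩

/-! ### primes -/

variable {l : ℕ} {I : Ideal (𝓞 K)}

theorem int_of_pow (hl : l.Prime) (hI : I.IsPrime) (m : (l : 𝓞 K) ∈ I) {x : 𝓞 K}
    (h : x ^ l - x ∈ I) : ∃ k : ℤ, x - k ∈ I := by
  have := hI.isMaximal fun c => hl.ne_zero (by simpa [c] using m)
  let _ := Ideal.Quotient.field I
  have := Fact.mk hl
  have : CharP (𝓞 K ⧸ I) l := (CharP.charP_iff_prime_eq_zero hl).2
    (by simpa using Ideal.Quotient.eq_zero_iff_mem.2 m)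
  obtain ⟨k, e⟩ := (mem_bot_iff_intCast l _).1 ((Subfield.mem_bot_iff_pow_eq_self
    (x := Ideal.Quotient.mk I x) _ l).2 (by simpa using Ideal.Quotient.eq.2 h))
  exact ⟨k, Ideal.Quotient.eq.1 (by simpa using e.symm)⟩

theorem dich (iq : Iq K) (q : Qd (JJ j) ω s) (hl : l.Prime) (hI : I.IsPrime) (m : (l : 𝓞 K) ∈ I) :
    (Ideal.absNorm I = l ∧ I ≠ Ideal.span {(l : 𝓞 K)} ∧ ∀ x, x ^ l - x ∈ I) ∨
      (Ideal.absNorm I = l ^ 2 ∧ I = Ideal.span {(l : 𝓞 K)} ∧ ω ^ l - ω ∉ I) := by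
  have n : Ideal.absNorm (Ideal.span {(l : 𝓞 K)}) = l ^ 2 := by
    rw [Ideal.absNorm_span_natCast, RingOfIntegers.rank, iq.two]
  obtain ⟨I', e⟩ := Ideal.dvd_span_singleton.2 m
  obtain ⟨i, i2, ei⟩ := (Nat.dvd_prime_pow hl).1 (n ▸ map_dvd Ideal.absNorm ⟨I', e⟩)
  interval_cases i
  · exact absurd (Ideal.absNorm_eq_one_iff.1 ei) hI.ne_top
  · rw [pow_one] at ei
    refine .inl ⟨ei, fun c => ?_, fun x => ?_⟩
    · rw [c, n, sq] at ei
      exact hl.one_lt.ne' (mul_left_cancel₀ hl.ne_zero (ei.trans (mul_one _).symm))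
    have := hI.isMaximal fun c => hl.ne_zero (by simpa [c] using m)
    let _ := Ideal.Quotient.field I
    have : Finite (𝓞 K ⧸ I) := (Ideal.absNorm_ne_zero_iff I).1 (ei ▸ hl.ne_zero)
    let _ := Fintype.ofFinite (𝓞 K ⧸ I)
    rw [Ideal.absNorm_apply, Submodule.cardQuot_apply, Nat.card_eq_fintype_card] at ei
    exact Ideal.Quotient.eq.1 (by rw [map_pow, ← ei, FiniteField.pow_card])
  · have e' : I = Ideal.span {(l : 𝓞 K)} := by
      rw [e, map_mul, ei] at n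
      rw [e, Ideal.absNorm_eq_one_iff.1 (mul_left_cancel₀ (pow_ne_zero 2 hl.ne_zero)
        (n.trans (mul_one _).symm)), Ideal.mul_top]
    refine .inr ⟨ei, e', fun c => ?_⟩
    obtain ⟨k, c⟩ := int_of_pow hl hI m c
    obtain ⟨x, c⟩ := Ideal.mem_span_singleton.1 (e' ▸ c)
    obtain ⟨u, v, rfl⟩ := q.sp x
    exact (Nat.prime_iff_prime_int.1 hl).not_dvd_one ⟨v, (q.ext (u := -k) (v := 1) (u' := l * u)
      (v' := l * v) (by push_cast; linear_combination c)).2⟩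

theorem ex_disc (q : Qd (JJ j) ω s) : ∃ d : ℤ, d ≠ 0 ∧ ∀ (l : ℕ) (I : Ideal (𝓞 K)), l.Prime →
    I ≠ ⊤ → (l : 𝓞 K) ∈ I → s ω - ω ∈ I → (l : ℤ) ∣ d := by
  obtain ⟨d, e⟩ := q.int_of (a := (s ω - ω) ^ 2) (by rw [map_pow, map_sub, q.ss]; ring)
  refine ⟨d, fun c => ?_, fun l I hl hI m k => by_contra fun c => hI ?_⟩
  · rw [c, Int.cast_zero, pow_eq_zero_iff two_ne_zero, sub_eq_zero] at e
    exact q.im.ne' (Complex.conj_eq_iff_im.1 (by rw [← q.cj, e]))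
  obtain ⟨u, v, c⟩ := (Nat.prime_iff_prime_int.1 hl).irreducible.coprime_iff_not_dvd.2 c
  have c' := congrArg (Int.cast : ℤ → 𝓞 K) c
  push_cast at c'
  rw [Ideal.eq_top_iff_one, ← c', ← e]
  exact add_mem (I.mul_mem_left _ m) (I.mul_mem_left _ (I.pow_mem_of_mem k 2 two_pos))

theorem nm_eq (q : Qd (JJ j) ω s) (hl : l.Prime) {π : 𝓞 K} (p : Prime π) (d : π ∣ l)
    (n : Ideal.span {π} ≠ Ideal.span {(l : 𝓞 K)}) : π * s π = l := by
  obtain ⟨π', e⟩ := d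
  obtain ⟨k, a⟩ := q.nm π
  obtain ⟨k', a'⟩ := q.nm π'
  have e' := congrArg s e
  rw [map_natCast, map_mul] at e'
  have b : k * k' = l ^ 2 := q.cast_inj (by
    push_cast
    linear_combination -(k' : 𝓞 K) * a - π * s π * a' - s π * s π' * e - l * e')
  have a1 := congrArg (JJ j) a
  rw [map_mul, q.cj, map_intCast, Complex.mul_conj] at a1
  have k0 : 0 ≤ k := by
    have : Complex.normSq (JJ j π) = k := by exact_mod_cast a1
    exact_mod_cast this ▸ Complex.normSq_nonneg (JJ j π)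
  lift k to ℕ using k0
  obtain ⟨i, i2, rfl⟩ := (Nat.dvd_prime_pow hl).1 (Int.natCast_dvd_natCast.1
    (show (k : ℤ) ∣ (l ^ 2 : ℕ) from ⟨k', by rw [b]; push_cast; rfl⟩))
  interval_cases i
  · exact absurd (IsUnit.of_mul_eq_one _ (by simpa using a)) p.not_unit
  · simpa using a
  · have : k' = 1 := mul_left_cancel₀ (pow_ne_zero 2 (Nat.cast_ne_zero.2 hl.ne_zero))
      (by simpa using b)
    exact absurd (by rw [e, Ideal.span_singleton_mul_right_unit (IsUnit.of_mul_eq_one (s π')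
      (by simpa [this] using a'))]) n

end Vale.Agent.P014X.Cs
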