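import Vale.Agent.P014X.Rx.All
import Vale.Agent.P014X.St0

/-!
# P014X, block RECX: the bridge from the datum `Cd` (helper58)
-/

set_option autoImplicit false
set_option linter.all false

open NumberField Finset
open QuadraticAlgebra (norm_def algebraMap_norm_eq_mul_star isUnit_iff_norm_isUnit)
open scoped Classical

noncomputable section

namespace Vale.Agent.P014X.Rx

open Vale.Agent.P014U
open Vale.Agent.P022 (Qb GQ)
open Vale.Agent.P022E.GW (Ov Fb)
open P004M.TE (Pt ga)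
open Bt (T2)

variable {A B : ℤ} (D : Cd A B)

theorem nm_nonneg (x : D.O) : 0 ≤ x.norm := by
  have := D.neg
  rw [norm_def]
  simp only [Int.cast_id]
  nlinarith [sq_nonneg (2 * x.re + D.b * x.im), sq_nonneg x.im]

theorem nm_cast (x : D.O) : ((x.norm : ℤ) : D.O) = x * star x := by
  rw [← algebraMap_norm_eq_mul_star]; rfl

theorem unit_star {ζ : D.O} (h : IsUnit ζ) : ζ * star ζ = 1 := by
  rw [← nm_cast, (Int.isUnit_iff.1 (isUnit_iff_norm_isUnit.1 h)).resolve_right fun e => by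
    have := nm_nonneg D ζ
    omega, Int.cast_one]

theorem nat_ne {n : ℕ} (h : n ≠ 0) : (n : D.O) ≠ 0 := fun e =>
  Nat.cast_ne_zero.2 h ((map_natCast D.j n).symm.trans ((congrArg D.j e).trans (map_zero _)))

variable {D} (cf : D.Cf)
include cf

theorem ac_all {m β : D.O} {g : GQ} (m0 : m ≠ 0) (h : D.Ac m g β) {T : Pt A B}
    (t : D.act m T = 0) : ga g T = D.act β T := by
  obtain ⟨x, rfl⟩ := (cf.gen m m0 T).1 ((cf.tr m m0 T).2 t)
  rw [cf.lin g h.1, h.2]
  exact DFunLike.congr_fun (((map_mul D.act x β).symm.trans (congrArg D.act (mul_comm x β))).trans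
    (map_mul D.act β x)) _

variable [Pp]

omit cf in
theorem pw_ne (k : ℕ) : ((pp : D.O) ^ k) ≠ 0 := by
  rw [← Nat.cast_pow]; exact nat_ne D (pow_ne_zero _ pp_ne)

omit cf in
theorem act_pw (k : ℕ) (T : Pt A B) : D.act (pp ^ k) T = pp ^ k • T := by
  rw [← Nat.cast_pow, map_natCast]; rfl

omit cf in
theorem cop_pw {l : ℕ} (hl : l.Prime) (n : l ≠ pp) {π : D.O} (d : π ∣ l) (k : ℕ) :
    IsCoprime ((pp : D.O) ^ k) π :=
  (Nat.Coprime.cast ((Nat.coprime_primes pp_prime hl).2 n.symm)).pow_left.of_isCoprime_of_dvd_right d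

omit cf in
/-- **the datum of the block** -/
def cm (cf : D.Cf) (S : Finset ℕ) (pS : pp ∈ S) (hS : ∀ l : ℕ, l.Prime →
    (l : ℤ) ∣ 6 * (4 * A ^ 3 + 27 * B ^ 2) ∨ (l : ℤ) ∣ D.b ^ 2 + 4 * D.a → l ∈ S) :
    Cm A B S D.O where
  j := D.j
  σ := starRingEnd _
  G := D.G
  act := D.act
  ω := QuadraticAlgebra.omega
  nm := fun e => e.norm
  w := 12
  inj := D.inj
  inv := star_star
  bas e := ⟨e.re, e.im, by ext <;> simp⟩
  ne e := by simpa [starRingEnd_apply] using congrArg QuadraticAlgebra.im e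
  nme := nm_cast D
  w0 := by decide
  un := cf.un
  fix := cf.fix
  cj := cf.cj
  lin := cf.lin
  sem := cf.sem
  unr l Q o n i m := by
    obtain ⟨φ, hφ⟩ := P022D.W.exists_phi o.1 o.2.1 o.2.2
    have g := (cf.spl l Q φ o (fun d => n (hS l o.1 (.inr d))) hφ).1 i m
    refine ⟨g, fun T ⟨k, t⟩ => ?_⟩
    have := cf.good l Q i o (fun d => n (hS l o.1 (.inl d))) m _ (pw_ne k) (by
      rw [← Nat.cast_pow, map_natCast]; exact X4F.Rc.pw_not o (fun e => n (e ▸ pS)) k)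
    rw [ac_all cf (pw_ne k) (β := 1) ⟨g, this.2.trans (by rw [map_one]; rfl)⟩ ((act_pw k T).trans t),
      map_one]
    rfl
  spl l Q φ o n hφ g := by
    obtain ⟨π, e, s, f⟩ := (cf.spl l Q φ o (fun d => n (hS l o.1 (.inr d))) hφ).2.1 g
    obtain ⟨ζ, u, a⟩ := cf.mt π Q 1 φ f
    refine ⟨ζ * π, (associated_unit_mul_left π ζ u).symm.prime f.pr, ?_, ?_, fun m => s ?_, fun T ⟨k, t⟩ => ?_⟩
    · rw [starRingEnd_apply, star_mul, ← e]
      linear_combination π * star π * unit_star D u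
    · rw [map_mul]; exact Q.mul_mem_left _ f.mem
    · have := Q.mul_mem_left (D.j ζ) m
      rwa [← map_mul, starRingEnd_apply, star_mul, mul_left_comm, unit_star D u, mul_one] at this
    · simpa using ac_all cf (pw_ne k) (a _ (pw_ne k) (cop_pw o.1 (fun e => n (e ▸ pS)) ⟨_, e.symm⟩ k))
        ((act_pw k T).trans t)
  ine l Q φ o n hφ g := by
    have f := (cf.spl l Q φ o (fun d => n (hS l o.1 (.inr d))) hφ).2.2 g
    obtain ⟨ζ, u, a⟩ := cf.mt _ Q 1 _ f
    refine ⟨f.pr, ζ, u, fun T ⟨k, t⟩ => ?_⟩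
    simpa using ac_all cf (pw_ne k) (a _ (pw_ne k) (cop_pw o.1 (fun e => n (e ▸ pS)) dvd_rfl k))
      ((act_pw k T).trans t)

variable {S : Finset ℕ} {pS : pp ∈ S} {hS : ∀ l : ℕ, l.Prime →
  (l : ℤ) ∣ 6 * (4 * A ^ 3 + 27 * B ^ 2) ∨ (l : ℤ) ∣ D.b ^ 2 + 4 * D.a → l ∈ S}

theorem gen_tp (n : ℕ) : (cm cf S pS hS).Gen n (D.tp (pp ^ n)) :=
  ⟨(act_pw n _).symm.trans ((cf.ker _ (pw_ne n) _).2 dvd_rfl), fun U u =>
    ((cf.gen _ (pw_ne n) U).1 ((cf.tr _ (pw_ne n) U).2 ((act_pw n U).trans u))).imp fun _ => Eq.symm,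
    fun e => (cf.ker _ (pw_ne n) e).1⟩

omit cf in
theorem xc_eq (Q : Pt A B) : xc Q = P014X.xc Q := by cases Q <;> rfl

omit cf in
theorem act_nat (c : ℕ) (T : Pt A B) : D.act c T = c • T := by rw [map_natCast]; rfl

/-- the poles -/
def zs (D : Cd A B) (c : ℕ) : Multiset Qb := ((D.tor c).erase 0).val.map xc

/-- **the function** -/
theorem th_of (eu : D.Eu) {c : ℕ} (h6 : c.Coprime 6) (hp : ¬ pp ∣ c) :
    ∃ k, Th c (D.th c) (zs D c) k := by
  have c0 : (c : D.O) ≠ 0 := nat_ne D fun e => hp (e ▸ dvd_zero _)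
  have c6 : IsCoprime (c : D.O) 6 := by simpa using Nat.Coprime.cast (R := D.O) h6
  have mt (T : Pt A B) : T ∈ D.tor c ↔ c • T = 0 := by rw [cf.tr _ c0, act_nat]
  obtain ⟨⟨k, k0, e⟩, ds⟩ := eu.th c c6
  refine ⟨k, k0, fun r m => ?_, fun Q n => ?_, fun g => ?_, fun g Q n => ?_, fun Q F hF n => ?_⟩
  · obtain ⟨T, u, rfl⟩ := Multiset.mem_map.1 m
    exact ⟨T, (mem_erase.1 u).1, (mt T).1 (mem_erase.1 u).2, rfl⟩
  · rw [← e Q (act_nat c Q ▸ n), zs, Multiset.map_map]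
    simp only [Function.comp_def, xc_eq]; rfl
  · have i : Function.Injective (ga g : Pt A B → Pt A B) := P004M.TE.pa_inj _
    have : ((D.tor c).erase 0).map ⟨_, i⟩ = (D.tor c).erase 0 := eq_of_subset_of_card_le
      (fun T m => by
        obtain ⟨U, u, rfl⟩ := mem_map.1 m
        exact mem_erase.2 ⟨fun z => (mem_erase.1 u).1 (i (z.trans (map_zero _).symm)), (mt _).2
          ((map_nsmul (ga g) c U).symm.trans (by rw [(mt U).1 (mem_erase.1 u).2, map_zero]))⟩)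
      (card_map _).ge
    conv_rhs => rw [zs, ← this]
    simp only [zs, map_val, Multiset.map_map, Function.comp_def, Function.Embedding.coeFn_mk,
      (xc_ga g _).1]
  · by_cases m : g ∈ D.G
    · exact eu.gal c c6 Q (act_nat c Q ▸ n) g m
    · rw [eu.cj c c6 Q (act_nat c Q ▸ n) g m, star_natCast]
  · have p0 : (pp : D.O) ≠ 0 := nat_ne D pp_ne
    rw [show F = D.tor pp from ext fun T => by rw [hF, cf.tr _ p0, act_nat], ds pp p0
      (Nat.Coprime.cast (pp_prime.coprime_iff_not_dvd.2 hp)) Q (by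
        rwa [← Nat.cast_mul, act_nat, mul_smul]), act_nat]

end Vale.Agent.P014X.Rx
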