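import Vale.Agent.P014X.Rx.Cm0
import Vale.Agent.P004M.TE.Tate

/-! # P014X: the action of the Galois group on the points killed by `m` (ray class groups) -/

set_option autoImplicit false
set_option linter.all false

open NumberField IsDedekindDomain
open scoped Classical

noncomputable section

namespace Vale.Agent.P014X.Cs

open Vale.Agent.P022 P027H P004K P004K.Rc
open P027M.M (io)
open P004M.TE (Pt ga Cv pa pa_inj ga_mul ga_one ev_ga)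

variable {A B : ℤ} {K : Type} [Field K] [NumberField K]

/-- `g` acts as `a` on the points killed by `m` -/
def Rh (act : 𝓞 K →+* AddMonoid.End (Pt A B)) (m : 𝓞 K) (g : GQ) (a : 𝓞 K) : Prop :=
  ∀ y, act m y = 0 → ga g y = act a y

/-- the data of a curve with complex multiplication by the maximal order -/
structure Dt (j : K →+* Qb) (ω : 𝓞 K) (s : 𝓞 K →+* 𝓞 K) (Λ : Submodule ℤ ℂ) (v : ℂ)
    (ex : ℂ →+ (Cv ℂ (A : ℚ) (B : ℚ)).Point) (act : 𝓞 K →+* AddMonoid.End (Pt A B)) : Prop where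
  uf : Uf A B Λ ex
  ac : Ac (JJ j) ex act
  iq : Iq K
  qd : Qd (JJ j) ω s
  kl : KL (JJ j) 1 Λ
  ne : v ≠ 0
  sp : ∀ z, z ∈ Λ ↔ ∃ x, z = JJ j x * v

variable {j : K →+* Qb} {ω : 𝓞 K} {s : 𝓞 K →+* 𝓞 K} {Λ : Submodule ℤ ℂ} {v : ℂ}
  {ex : ℂ →+ (Cv ℂ (A : ℚ) (B : ℚ)).Point} {act : 𝓞 K →+* AddMonoid.End (Pt A B)}
  {m m' a b : 𝓞 K} {g h : GQ}

theorem ex_dt (h2 : g2 Λ = -4 * A) (h3 : g3 Λ = -4 * B) (iq : Iq K) (kl : KL (JJ j) 1 Λ) :
    ∃ ω s v ex act, Dt (A := A) (B := B) j ω s Λ v ex act := by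
  obtain ⟨ex, U⟩ := ex_uf kl.lat h2 h3
  obtain ⟨ω, s, q⟩ := qd j iq
  have := pid U iq kl
  obtain ⟨v, v0, hv⟩ := ex_gen q kl
  obtain ⟨act, H⟩ := U.ex_act kl alg_J
  exact ⟨ω, s, v, ex, act, U, H, iq, q, kl, v0, hv⟩

theorem act_mul (a b : 𝓞 K) (y : Pt A B) : act (a * b) y = act a (act b y) := by
  rw [map_mul]
  rfl

theorem act_comm (a b : 𝓞 K) (y : Pt A B) : act a (act b y) = act b (act a y) := by
  rw [← act_mul, mul_comm, act_mul]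

theorem Rh.one : Rh act m 1 1 := fun y _ => by rw [ga_one, map_one]; rfl

theorem Rh.dvd (k : Rh act m' g a) (d : m ∣ m') : Rh act m g a := fun y e => k y (by
  obtain ⟨c, rfl⟩ := d
  rw [mul_comm, act_mul, e, map_zero])

theorem Rh.congr (k : Rh act m g a) (d : m ∣ a - b) : Rh act m g b := fun y e => by
  obtain ⟨c, d⟩ := d
  rw [k y e, eq_add_of_sub_eq d, map_add, mul_comm]
  show act (c * m) y + act b y = _
  rw [act_mul, e, map_zero, zero_add]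

namespace Dt

variable (D : Dt j ω s Λ v ex act)
include D

theorem pid : IsPrincipalIdealRing (𝓞 K) := Cs.pid D.uf D.iq D.kl

theorem lin (hg : g ∈ GK j) (e : 𝓞 K) (y : Pt A B) : ga g (act e y) = act e (ga g y) :=
  let ⟨_, k⟩ := ex_ex g
  D.uf.act_ga D.ac D.kl k (k.JJ hg e) y

theorem sem (hg : g ∉ GK j) (e : 𝓞 K) (y : Pt A B) : ga g (act e y) = act (s e) (ga g y) :=
  let ⟨_, k⟩ := ex_ex g
  D.uf.act_ga D.ac D.kl k ((k _).trans (congrArg io (cj_of D.iq D.qd hg e))) y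

theorem gen (m0 : m ≠ 0) : ∃ T, ex (v / JJ j m) = pa io T ∧ (∀ e, act e T = 0 ↔ m ∣ e) ∧
    ∀ y, act m y = 0 → ∃ e, act e T = y := D.uf.gen D.ac D.qd D.ne D.sp m0

theorem of_gen (hg : g ∈ GK j) {T : Pt A B} (c : ∀ y, act m y = 0 → ∃ e, act e T = y)
    (e : ga g T = act a T) : Rh act m g a := fun y hy => by
  obtain ⟨x, rfl⟩ := c y hy
  rw [D.lin hg, e, act_comm]

theorem rh_ex (m0 : m ≠ 0) (hg : g ∈ GK j) : ∃ a, Rh act m g a := by
  obtain ⟨T, -, b, c⟩ := D.gen m0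
  obtain ⟨a, e⟩ := c (ga g T) (by rw [← D.lin hg, (b m).2 dvd_rfl, map_zero])
  exact ⟨a, D.of_gen hg c e.symm⟩

theorem rh_iff (m0 : m ≠ 0) (k : Rh act m g a) : Rh act m g b ↔ m ∣ a - b := by
  refine ⟨fun k' => ?_, k.congr⟩
  obtain ⟨T, -, c, -⟩ := D.gen m0
  rw [← c, map_sub]
  exact sub_eq_zero.2 ((k T ((c m).2 dvd_rfl)).symm.trans (k' T ((c m).2 dvd_rfl)))

theorem rh_mul (hg : g ∈ GK j) (k : Rh act m g a) (k' : Rh act m h b) :
    Rh act m (g * h) (a * b) := fun y e => by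
  rw [ga_mul, k' y e, D.lin hg, k y e, act_comm, act_mul]

theorem rh_cop (m0 : m ≠ 0) (hg : g ∈ GK j) (k : Rh act m g a) : IsCoprime a m := by
  obtain ⟨b, k'⟩ := D.rh_ex m0 (inv_mem hg)
  obtain ⟨c, e⟩ := (D.rh_iff m0 (mul_inv_cancel g ▸ D.rh_mul hg k k')).1 Rh.one
  exact ⟨b, -c, by linear_combination e⟩

theorem rh_cj (hg : g ∉ GK j) (d : m ∣ s m) (k : Rh act m h a) :
    Rh act m (g * h * g⁻¹) (s a) := fun y e => by
  obtain ⟨c, d⟩ := d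
  have hg' := mt (inv_mem_iff (x := g)).1 hg
  have e' : act m (ga g⁻¹ y) = 0 := by
    rw [← D.qd.ss m, ← D.sem hg', d, mul_comm, act_mul, e, map_zero, map_zero]
  rw [ga_mul, ga_mul, k _ e', D.sem hg, ← ga_mul, mul_inv_cancel, ga_one]

theorem rh_open (m0 : m ≠ 0) (a : 𝓞 K) : IsOpen {g | g ∈ GK j ∧ Rh act m g a} := by
  obtain ⟨T, -, b, c⟩ := D.gen m0
  refine isOpen_iff_mem_nhds.2 fun g hg => ?_
  filter_upwards [(H916.isOpen_GK j).mem_nhds hg.1, ev_ga g T] with x h1 h2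
  exact ⟨h1, D.of_gen h1 c (h2.trans (hg.2 T ((b m).2 dvd_rfl)))⟩

/-- inertia (`k = 0`) and Frobenius (`k = 1`) at the primes which do not divide `m` -/
theorem rh_frob (hg : g ∈ GK j) {P : Ideal (𝓞 Qb)} (hP : P.IsPrime) (P0 : below j P ≠ ⊥)
    (hm : m ∉ below j P) (k : ℕ)
    (f : ∀ x : 𝓞 Qb, g • x - x ^ Ideal.absNorm (below j P) ^ k ∈ P) :
    ∃ π, Ideal.span {π} = below j P ^ k ∧ Rh act m g π :=
  (frob D.uf D.ac D.iq D.kl hg hP P0 k f).imp fun _ e => ⟨e.1, e.2 m hm⟩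

theorem rh_inert (hg : g ∈ GK j) {P : Ideal (𝓞 Qb)} (hP : P.IsPrime) (P0 : below j P ≠ ⊥)
    (hm : m ∉ below j P) (f : ∀ x : 𝓞 Qb, g • x - x ∈ P) : ∃ u, IsUnit u ∧ Rh act m g u :=
  (D.rh_frob hg hP P0 hm 0 (by simpa using f)).imp fun _ e =>
    ⟨Ideal.span_singleton_eq_top.1 (by simpa using e.1), e.2⟩

theorem rh_prime {π : 𝓞 K} (p : Prime π) (d : ¬ π ∣ m) (hg : g ∈ GK j) {P : Ideal (𝓞 Qb)}
    (hP : P.IsPrime) (e : below j P = Ideal.span {π})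
    (f : ∀ x : 𝓞 Qb, g • x - x ^ Ideal.absNorm (Ideal.span {π}) ∈ P) :
    ∃ u, IsUnit u ∧ Rh act m g (u * π) := by
  obtain ⟨π', e', k⟩ := D.rh_frob (m := m) hg hP (by simpa [e] using p.ne_zero)
    (by rwa [e, Ideal.mem_span_singleton]) 1 (by rwa [e, pow_one])
  rw [e, pow_one] at e'
  obtain ⟨u, rfl⟩ := (Ideal.span_singleton_eq_span_singleton.1 e').symm
  exact ⟨u, u.isUnit, mul_comm π u ▸ k⟩

/-- every class prime to `m` occurs up to a unit -/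
theorem rh_onto (c : IsCoprime a m) : ∃ g ∈ GK j, ∃ u, IsUnit u ∧ Rh act m g (u * a) := by
  have := D.pid
  induction a using UniqueFactorizationMonoid.induction_on_prime with
  | h₁ => exact ⟨1, one_mem _, 1, isUnit_one, Rh.one.congr (isCoprime_zero_left.1 c).dvd⟩
  | h₂ a u =>
    obtain ⟨b, e⟩ := u.exists_left_inv
    exact ⟨1, one_mem _, b, .of_mul_eq_one _ e, e ▸ Rh.one⟩
  | h₃ a π a0 p ih =>
    obtain ⟨g, hg, u, hu, k⟩ := ih c.of_mul_left_right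
    obtain ⟨P, φ, p1, p2, p3⟩ := H651.exists_frI j
      ⟨Ideal.span {π}, (Ideal.span_singleton_prime p.ne_zero).2 p, by simpa using p.ne_zero⟩
    obtain ⟨u', hu', k'⟩ := D.rh_prime (m := m) p
      (fun d => p.not_unit (c.of_mul_left_left.isUnit_of_dvd' dvd_rfl d)) φ.2 p1 p2 p3
    exact ⟨φ * g, mul_mem φ.2 hg, u' * u, hu'.mul hu, by
      simpa only [mul_mul_mul_comm u' π] using D.rh_mul φ.2 k' k⟩

/-- **the character** -/
theorem ex_rho (m0 : m ≠ 0) : ∃ ρ : GK j →* (𝓞 K ⧸ Ideal.span {m})ˣ,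
    ∀ (g : GK j) a, Rh act m g a ↔ Ideal.Quotient.mk (Ideal.span {m}) a = ρ g := by
  choose f hf using fun g : GK j => D.rh_ex m0 g.2
  have e (g : GK j) (a) : Rh act m g a ↔
      Ideal.Quotient.mk (Ideal.span {m}) a = Ideal.Quotient.mk _ (f g) := by
    rw [D.rh_iff m0 (hf g), eq_comm, Ideal.Quotient.eq, Ideal.mem_span_singleton]
  exact ⟨MonoidHom.toHomUnits
    { toFun := fun g => Ideal.Quotient.mk _ (f g)
      map_one' := ((e 1 1).1 Rh.one).symm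
      map_mul' := fun g h => ((e (g * h) _).1 (D.rh_mul g.2 (hf g) (hf h))).symm }, e⟩

/-- the group of the ray class field -/
def Hr (m : 𝓞 K) : Subgroup GQ where
  carrier := {g | g ∈ GK j ∧ ∃ u, IsUnit u ∧ Rh act m g u}
  one_mem' := ⟨one_mem _, 1, isUnit_one, Rh.one⟩
  mul_mem' := fun ⟨a, u, b, c⟩ ⟨a', u', b', c'⟩ => ⟨mul_mem a a', _, b.mul b', D.rh_mul a c c'⟩
  inv_mem' := fun {g} ⟨a, u, b, c⟩ => ⟨inv_mem a, by
    obtain ⟨u', e⟩ := b.exists_left_inv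
    refine ⟨u', .of_mul_eq_one _ e, fun y hy => ?_⟩
    have k : act m (act u' y) = 0 := by rw [act_comm, hy, map_zero]
    have := congrArg (ga g⁻¹) (c _ k)
    rw [← ga_mul, inv_mul_cancel, ga_one, ← act_mul, mul_comm, e, map_one] at this
    exact this.symm⟩

theorem mem_Hr : g ∈ D.Hr m ↔ g ∈ GK j ∧ ∃ u, IsUnit u ∧ Rh act m g u := Iff.rfl

theorem Hr_le : D.Hr m ≤ GK j := fun _ k => k.1

theorem Hr_mono (d : m ∣ m') : D.Hr m' ≤ D.Hr m := fun _ ⟨a, u, b, c⟩ => ⟨a, u, b, c.dvd d⟩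

theorem Hr_open (m0 : m ≠ 0) : IsOpen (D.Hr m : Set GQ) :=
  Subgroup.isOpen_of_mem_nhds _ (Filter.mem_of_superset
    ((D.rh_open m0 1).mem_nhds ⟨one_mem _, Rh.one⟩) fun _ k => ⟨k.1, 1, isUnit_one, k.2⟩)

theorem Hr_iff (m0 : m ≠ 0) (hg : g ∈ GK j) (k : Rh act m g a) :
    g ∈ D.Hr m ↔ ∃ u, IsUnit u ∧ m ∣ a - u := by
  simp only [mem_Hr, hg, true_and, D.rh_iff m0 k]

theorem Hr_comm (m0 : m ≠ 0) (hg : g ∈ GK j) (hh : h ∈ GK j) :
    (g * h)⁻¹ * (h * g) ∈ D.Hr m := by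
  obtain ⟨a, k⟩ := D.rh_ex m0 hg
  obtain ⟨b, k'⟩ := D.rh_ex m0 hh
  refine ⟨mul_mem (inv_mem (mul_mem hg hh)) (mul_mem hh hg), 1, isUnit_one, fun y e => ?_⟩
  rw [ga_mul, D.rh_mul hh k' k y e, mul_comm b, ← D.rh_mul hg k k' y e, ← ga_mul, inv_mul_cancel,
    Rh.one y e]

theorem Hr_cj (hg : g ∈ GK j ∨ m ∣ s m) (k : h ∈ D.Hr m) : g * h * g⁻¹ ∈ D.Hr m := by
  obtain ⟨a, u, b, c⟩ := k
  by_cases m1 : g ∈ GK j
  · refine ⟨mul_mem (mul_mem m1 a) (inv_mem m1), u, b, fun y e => ?_⟩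
    rw [ga_mul, ga_mul, c _ (by rw [← D.lin (inv_mem m1), e, map_zero]), D.lin m1, ← ga_mul,
      mul_inv_cancel, ga_one]
  · exact ⟨H916.mul_inv_mem j D.iq.two (fun c => m1 ((mul_mem_cancel_right a).1 c)) m1, _, b.map s,
      D.rh_cj m1 (hg.resolve_left m1) c⟩

theorem Hr_normal (d : m ∣ s m) : (D.Hr m).Normal := ⟨fun _ k _ => D.Hr_cj (.inr d) k⟩

end Dt

end Vale.Agent.P014X.Cs
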