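import Vale.Agent.P014X.Rx.Fm

/-!
# P014X, block RECX: the local pairing with the class of a unit (helper58)
-/

set_option autoImplicit false
set_option linter.all false

open NumberField Finset
open scoped Classical

noncomputable section

namespace Vale.Agent.P014X.Rx

open Vale.Agent.P014U Vale.Agent.P014U.Sy Vale.Agent.P014U.Sy.Fd
open Vale.Agent.P022 (Qb GQ)
open Vale.Agent.P022D.W (dec)
open Vale.Agent.P022E.GW (Ov)
open X4S.Ga (K O)
open X4S.Aq
open X4F.Rc (mq hn hn_mul mq_eq mq_zero)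
open Vale.Agent.P004F (hq)
open P004M.TE (Pt ga ga_mul ga_one)
open P014T.Top (El)
open P014T.Kc (Tr ta_eq)
open P014T.Rc (zw)
open P014T.Wm (Fx)
open Ah (iv_iv)
open Topology

variable [Pp] {A B : ℤ}

theorem cy_fix (h : El A B) {n : ℕ} {g : GQ} (k : ∀ U : Pt A B, pp ^ n • U = 0 → ga g U = U) :
    hn n * (cy g - 1) ∈ O := by
  have a := fun i => P027M.K.TM.pow_smul_cp (X4M.TE.bs (hq h) i) n
  have p := (Ki.pr (hq h)).act g (a 0) (a 1)
  have q := Ki.wp_cp (hq h) n (X4M.TE.bs (hq h) 0) (X4M.TE.bs (hq h) 1)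
  rw [k _ (a 0), k _ (a 1), mq_eq] at p
  rw [mq_eq, show Ki.dt (hq h) (X4M.TE.bs (hq h) 0) (X4M.TE.bs (hq h) 1) = 1 by simp [Ki.dt]] at q
  exact O_of (sub_mem p (O_mul (sub_mem (O_cy g) O_one) q)) (by push_cast; ring)

theorem wp_sum (h : El A B) {n : ℕ} {U : Pt A B} (u : pp ^ n • U = 0) {J : Type} [Fintype J]
    (a : J → ℤ) {V : J → Pt A B} (v : ∀ i, pp ^ n • V i = 0) :
    Ki.wp (hq h) n U (∑ i, a i • V i) - ∑ i, a i * Ki.wp (hq h) n U (V i) ∈ O := by
  let φ : P025H816.tors (Pt A B) (pp ^ n) →+ K ⧸ O := AddMonoidHom.mk'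
    (fun x => mq (Ki.wp (hq h) n U x.1)) fun x y => (Ki.pr (hq h)).addr u x.2 y.2
  have := map_sum φ (fun i => a i • (⟨V i, v i⟩ : P025H816.tors (Pt A B) (pp ^ n))) univ
  simp only [map_zsmul, φ, AddMonoidHom.mk'_apply, AddSubgroup.val_finsetSum,
    AddSubgroupClass.coe_zsmul] at this
  rw [← mq_eq, this, map_sum]
  exact sum_congr rfl fun i _ => (Iv.mq_int _ _).symm

section

variable {H D : Subgroup GQ} {J : Type} [Fintype J] {s : J → GQ} {p : GQ → J → J}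
  (r : Tr ⊤ H s p)
include r

theorem tr_ev (o : IsOpen (H : Set GQ)) (g : GQ) (i : J) : ∀ᶠ k in 𝓝 g, p k i = p g i := by
  have : ∀ᶠ k in 𝓝 g, (s i)⁻¹ * (g⁻¹ * k) * s i ∈ H :=
    (o.preimage (f := fun k => (s i)⁻¹ * (g⁻¹ * k) * s i) (by fun_prop)).mem_nhds (by simp)
  filter_upwards [this] with k m
  rw [← mul_inv_cancel_left g k, r.mul trivial trivial, r.fix trivial m]

theorem tr_ds (o : IsOpen (H : Set GQ)) : Ds D p univ :=
  ⟨fun _ _ _ _ => mem_univ _, fun i _ => r.one i, fun _ _ _ _ i _ => r.mul trivial trivial i,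
    fun i _ g _ => mem_nhdsWithin_of_mem_nhds (tr_ev r o g i)⟩

theorem tr_ga {x : Pt A B} (k : ∀ g ∈ H, ga g x = x) (g : GQ) (i : J) :
    ga g (ga (s i) x) = ga (s (p g i)) x := by
  rw [← ga_mul, ← ta_eq (p := p), ga_mul, k _ (r.ta_mem trivial i)]

end

variable {h : El A B} {S : Finset ℕ} {R : Type} [CommRing R] {C : Cm A B S R} {c N : ℕ}
  {Θ : Pt A B → Qb} {H D : Subgroup GQ} {ρ T t : Pt A B} {β : Qb} {f : R →+ ℤ} {z : GQ → Pt A B}
  {Z : Multiset Qb} {k : Qb} (θ : Th c Θ Z k) (u : Ud h C c N Θ H ρ T t β f z) {g j : GQ}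
include u

theorem Ud.all (m : g ∈ H) (U : Pt A B) (a : pp ^ N • U = 0) : ga g U = U := by
  rw [← u.gen.co a, C.lin g (u.le m), (u.fx g m).2]

theorem Ud.fxx (m : g ∈ H) : ga g (ρ + T) = ρ + T := by rw [map_add, (u.fx g m).1, (u.fx g m).2]

theorem Ud.nz (a : ℕ) : c • pp ^ a • (ρ + T) ≠ 0 := fun e => by
  obtain ⟨v, v1, v2⟩ := u.rho
  have e1 : pp ^ (N + a) • c • ρ = 0 := by
    have : pp ^ N • c • pp ^ a • (ρ + T) = 0 := by rw [e, nsmul_zero]
    rw [smul_comm, smul_comm (pp ^ N), nsmul_add, u.gen.tor, add_zero] at this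
    rwa [smul_comm, add_comm, pow_add, mul_smul]
  have e2 : v • c • ρ = 0 := by rw [smul_comm, v2, nsmul_zero]
  have := Nat.dvd_gcd (addOrderOf_dvd_of_nsmul_eq_zero e1) (addOrderOf_dvd_of_nsmul_eq_zero e2)
  rw [((pp_prime.coprime_iff_not_dvd.2 v1).pow_left _).gcd_eq_one, Nat.dvd_one] at this
  exact u.cr (AddMonoid.addOrderOf_eq_one_iff.1 this)

theorem Ud.kt {a b : ℤ} (e : ex (hn N * a) = ex (hn N * b)) : a • t = b • t := by
  obtain ⟨d, e⟩ := (Iv.int_iff N (a - b)).1 (O_of (ex_eq.1 e) (by push_cast; ring))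
  rw [← sub_eq_zero, ← sub_smul, e, mul_comm, mul_smul, natCast_zsmul, u.tor, zsmul_zero]

theorem Ud.ztor (m : g ∈ H) : pp ^ N • z g = 0 := by
  obtain ⟨a, -, e⟩ := u.ku g m
  rw [e, smul_comm, u.tor, zsmul_zero]

include θ

theorem Ud.b0 : β ≠ 0 := fun e => θ.nz (by simpa using u.nz 0) (by
  rw [← u.rt, e, zero_pow (pow_ne_zero _ pp_ne)])

theorem Ud.zeq (m : g ∈ H) (m' : j ∈ H) (e : g β = j β) : z g = z j := by
  obtain ⟨a, a1, a2⟩ := u.ku g m
  obtain ⟨b, b1, b2⟩ := u.ku j m'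
  rw [a2, b2, u.kt (mul_right_cancel₀ (u.b0 θ) (a1.symm.trans (e.trans b1)))]

theorem Ud.zmul (m : g ∈ H) (m' : j ∈ H) : z (g * j) = z g + z j := by
  obtain ⟨a, a1, a2⟩ := u.ku g m
  obtain ⟨b, b1, b2⟩ := u.ku j m'
  obtain ⟨d, d1, d2⟩ := u.ku _ (mul_mem m m')
  rw [a2, b2, d2, ← add_zsmul]
  refine u.kt (mul_right_cancel₀ (u.b0 θ) ?_)
  rw [← d1, AlgEquiv.mul_apply, b1, map_mul, a1, ex_cy, ← mul_assoc, ← ex_add]
  exact congrArg (· * β) (ex_eq.2 (O_of (O_mul (cy_fix h (u.all m)) (O_int b)) (by push_cast; ring)))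

variable {J : Type} [Fintype J] {s : J → GQ} {p : GQ → J → J} {W : J → ℤ} (r : Tr ⊤ H s p)
  (hW : ∀ g ∈ D, ∀ i, W (p g i) = W i)
include r hW

omit θ in
theorem Ud.fa : Fa C D p univ N (fun i => C.ep (s i)) W fun i => ga (s i) T where
  ds := tr_ds r u.op
  ep g _ i _ := by
    rw [Cm.al, ← C.ep_mul, ← ta_eq (p := p), C.ep_mul, C.ep_f.2 (u.le (r.ta_mem trivial i)),
      Bool.xor_false]
  wt g hg i _ := hW g hg i
  ev g _ i _ := tr_ga r (fun g m => (u.fx g m).2) g i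
  gen i _ := u.gen.ga _

theorem Ud.zn : Cp.Zn D N (zw s p W z) where
  lc := IsLocallyConstant.comp_continuous (g := zw s p W z) ((IsLocallyConstant.iff_eventually_eq _).2
    fun g => by
      filter_upwards [Filter.eventually_all.2 fun i => (tr_ev r u.op g i).and
        ((X4F.Rc.lc_act (s i β)).eventually_eq g)] with j e
      refine sum_congr rfl fun i _ => ?_
      rw [(e i).1, u.zeq θ (r.ta_mem (x := j) trivial i) (r.ta_mem (x := g) trivial i)]
      simp only [P014T.Kc.ta, AlgEquiv.mul_apply, (e i).1, (e i).2]) continuous_subtype_val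
  co g hg j hj := by
    simp only [zw, map_sum, map_zsmul]
    rw [← r.sum (x := j) trivial fun i => W i • ga (s (p g i)) (z (P014T.Kc.ta s p g i)),
      ← sum_add_distrib]
    refine sum_congr rfl fun i _ => ?_
    rw [r.ta_mul trivial trivial, u.zmul θ (r.ta_mem trivial _) (r.ta_mem trivial _), hW j hj,
      tr_ga r fun g m => u.all m _ (u.ztor (r.ta_mem trivial i)), r.mul trivial trivial, map_add,
      zsmul_add]
  tr g _ := by
    rw [zw, smul_sum]
    exact sum_eq_zero fun i _ => by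
      rw [smul_comm, ← map_nsmul, u.ztor (r.ta_mem trivial i), map_zero, zsmul_zero]

omit hW in
theorem Ud.ev : Ev D p univ fun i => ga (s i) (ρ + T) := fun g _ i _ =>
  tr_ga r (fun g m => u.fxx m) g i

omit hW r θ in
theorem Ud.nzs (g : GQ) (a : ℕ) : c • pp ^ a • ga g (ρ + T) ≠ 0 := fun e => u.nz a (by
  have := congrArg (ga g⁻¹) e
  rwa [map_nsmul, map_nsmul, ← ga_mul, inv_mul_cancel, ga_one, map_zero] at this)

omit hW in
/-- **evaluation of the local pairing** -/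
theorem Ud.iv {P : Ideal (𝓞 Qb)} (o : Ov pp P) (hW : ∀ g ∈ dec P, ∀ i, W (p g i) = W i)
    {y : Pt A B} (hy : pp ^ N • y ∈ Fx A B (dec P)) :
    Iv.iv P (Cp.cp (Ki.wp (hq h)) N (Bt.dd A B y) (zw s p W z)) =
      Rx.pr (fdQ (dec P) (iv_iv o)) p univ N
        (ch p (ta C f N (fun i => C.ep (s i)) W fun i => ga (s i) T) fun _ => y)
        fun i => Θ (ga (s i) (ρ + T)) := by
  have F := u.fa r hW
  have ey : Ev (dec P) p univ (pp ^ N • fun _ : J => y) := fun g hg _ _ => hy g hg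
  have hb := θ.mem (iv_iv o) (u.ev (D := dec P) θ r) fun i _ => by simpa using u.nzs (s i) 0
  rw [pr_eq (F := fdQ (dec P) (iv_iv o)) F.ds (ch_c1 F.ds (F.ch f) ey) hb
    (ku_kp (F := fdQ (dec P) (iv_iv o)) (β := fun i => s i β) F.ds hb fun i _ => by
      rw [← map_pow, u.rt, θ.gal _ _ (by simpa using u.nz 0)])]
  refine Iv.iv_congr o fun g hg j hj => ?_
  choose a a1 a2 using fun i => u.ku _ (r.ta_mem (x := j) trivial i)
  have tU : pp ^ N • (ga g y - y) = 0 := Ki.tor (ρ := ga) hy hg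
  have e1 : ga g (zw s p W z j) = ∑ i, (W i * a i) • ga (g * s (p j i)) t := by
    simp only [zw, map_sum, map_zsmul, a2, mul_zsmul, ga_mul]
  have e2 := wp_sum h tU (fun i => W i * a i) fun i => Ki.tor_map (ρ := ga) u.tor (g * s (p j i))
  rw [← e1] at e2
  refine O_of (add_mem e2 (sum_mem (t := univ) (f := fun i => (W i * a i : ℤ) *
    Ki.wp (hq h) N (ga g y - y) (ga (g * s (p j i)) t) - tb C f N (C.ep (s (p g (p j i))))
      (W (p g (p j i))) (ga (s (p g (p j i))) T) (ga g y - y) * (cy g * ((pp : K) ^ N *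
        (fdQ (dec P) (iv_iv o)).kp p (fun i => s i β) j i))) fun i _ => ?_)) (by
    rw [sum_sub_distrib, sub_add_sub_cancel]; rfl)
  have k1 : (fdQ (dec P) (iv_iv o)).kp p (fun i => s i β) j i - cy (s (p j i)) * (hn N * a i) ∈ O := by
    have : j (s i β) / s (p j i) β = ex (cy (s (p j i)) * (hn N * a i)) := by
      rw [← AlgEquiv.mul_apply, ← ta_eq (p := p), AlgEquiv.mul_apply, a1, map_mul, ex_cy,
        mul_div_cancel_right₀ _ ((map_ne_zero _).2 (u.b0 θ))]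
    refine ex_eq.1 (Eq.trans ((fdQ (dec P) (iv_iv o)).ex_lg (n := N) ?_) this)
    exact (congrArg (· ^ pp ^ N) this).trans (ex_root.2 (O_of (O_mul (O_cy (s (p j i))) (O_int (a i)))
      (by linear_combination (cy (s (p j i)) * a i) * hn_mul N)))
  have ep := F.ep g hg (p j i) (mem_univ _)
  have ev := F.ev g hg (p j i) (mem_univ _)
  have lv := (F.ch f).lev (mem_univ (p g (p j i))) tU
  simp only [ta] at lv ep ev
  rw [Cm.al, ← C.ep_mul] at ep
  rw [← ga_mul] at ev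
  rw [ep, ← ev, hW g hg, hW j hj] at *
  generalize hγ : g * s (p j i) = γ
  have cγ : cy γ = cy g * cy (s (p j i)) := by rw [← hγ, map_mul]
  rw [hγ] at lv
  obtain ⟨e, he⟩ := u.gen.sp _ (Ki.tor_map (ρ := ga) tU γ⁻¹)
  have hU : ga γ (C.act e T) = ga g y - y := by rw [he, ← ga_mul, mul_inv_cancel, ga_one]
  have k2 := tb_eq f (u.gen.ga γ) ((C.ga_act γ e T).symm.trans hU) (C.ep γ) (W i)
  have k3 := (Ki.pr (hq h)).act γ (u.gen.act_tor e) u.tor
  rw [hU, mq_eq] at k3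
  rw [C.s_s, Bool.xor_self, C.s_f] at k2
  exact O_of (sub_mem (sub_mem (O_mul (O_int (W i * a i)) (sub_mem (O_mul (O_cy γ) (u.pr e)) k3))
    (O_mul lv (O_mul (O_cy g) k1))) (O_mul k2 (O_mul (O_cy γ) (O_int (a i))))) (by
      rw [cγ]; push_cast
      linear_combination (-tb C f N (C.ep γ) (W i) (ga γ T) (ga g y - y) * cy g * cy (s (p j i)) *
        a i) * hn_mul N)

end Vale.Agent.P014X.Rx
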