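import Vale.Agent.P014X.Rx.St

/-!
# P014X, block RECX: global reciprocity for the logarithm of the character (helper39)
-/

set_option autoImplicit false
set_option linter.all false

open NumberField Finset
open scoped Classical

noncomputable section

namespace Vale.Agent.P014X.Rx

open Vale.Agent.P014U Vale.Agent.P014U.Sy Vale.Agent.P014U.Sy.Fd
open Vale.Agent.P022 (Qb GQ)
open Vale.Agent.P022D.W (dec inP_le_dec phi_mem exists_phi)
open Vale.Agent.P022.H443 (inP)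
open Vale.Agent.P022E.GW (Ov Fb)
open X4S.Ga (K O Z2 B2)
open X4S.Aq (cy O_of O_mul O_cy cy_in pw_pos)
open X4F.Rc (mq mq_eq mq_zero hn hn_mul unr1 pw_not int_mem lc_act)
open P004M.TE (Pt ga ga_mul ga_one)
open Bt (T2)
open Ah (iv_iv)

namespace Go

variable [Pp]

/-! ## local lemmas -/

section loc

variable {l n : ℕ} {Q : Ideal (𝓞 Qb)} {X : Type} {α : GQ → X → X} {S : Finset X}
  {u : GQ → X → K}

/-- two roots of the same unit which are congruent are equal -/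
theorem rt_eq (o : Ov l Q) (h2 : l ≠ pp) {x y : 𝓞 Qb} (e : x ^ pp ^ n = y ^ pp ^ n) (hy : y ∉ Q)
    (h : x - y ∈ Q) : x = y := by
  have y0 : (y : Qb) ≠ 0 := fun c => hy (by rw [RingOfIntegers.ext (y := 0) c]; exact zero_mem _)
  have hη : ((x : Qb) / y) ^ pp ^ n = 1 := by
    have := congrArg (fun z : 𝓞 Qb => (z : Qb)) e
    push_cast at this
    rw [div_pow, this, div_self (pow_ne_zero _ y0)]
  let η : 𝓞 Qb := ⟨x / y, IsIntegral.of_pow (n := pp ^ n) (pw_pos n) (by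
    rw [hη]; exact isIntegral_one)⟩
  have e2 : x = η * y := RingOfIntegers.ext (div_mul_cancel₀ _ y0).symm
  have e3 : η = 1 := P022E.GW.Unr.root_inj o.2.1 (pw_not o h2 n) (RingOfIntegers.ext hη)
    (one_pow _) ((o.2.1.mem_or_mem (x := η - 1) (y := y) (by
      rwa [sub_mul, one_mul, ← e2])).resolve_right hy)
  rw [e2, e3, one_mul]

/-- the trivial invariant -/
theorem iv0 : Iv ⊤ fun _ => 0 := ⟨fun _ _ _ _ => (add_zero _).symm, fun _ _ _ => rfl⟩

/-- the cocycle of the pairing -/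
def zz (α : GQ → X → X) (S : Finset X) (n : ℕ) (u : GQ → X → K) (b : X → Qb) : GQ → GQ → K :=
  cup α S n u ((fdQ ⊤ iv0).kp α (ro n b))

theorem pr_zz (o : Ov l Q) (b : X → Qb) :
    pr (fdQ (dec Q) (iv_iv o)) α S n u b = P014U.Iv.iv Q (zz α S n u b) := rfl

/-- unramified classes -/
theorem unr (o : Ov l Q) (h2 : l ≠ pp) (d : Ds (dec Q) α S) (a : C1 (dec Q) α S n 1 u)
    {y : X → 𝓞 Qb} (hb : (fun x => (y x : Qb)) ∈ (fdQ (dec Q) (iv_iv o)).G α S)
    (hy : ∀ x ∈ S, y x ∉ Q) (hα : ∀ i ∈ inP Q, ∀ x ∈ S, α i x = x)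
    (hu : ∀ i ∈ inP Q, ∀ x ∈ S, u i x ∈ O) : B2 cy (dec Q) (zz α S n u fun x => y x) := by
  have c := (ku_kp (F := fdQ (dec Q) (iv_iv o)) d hb fun x _ =>
    ro_pow n (fun x => (y x : Qb)) x).c1 d hb
  have z := cup_z2 d a c
  have k0 : ∀ i ∈ inP Q, ∀ x ∈ S,
      (fdQ (dec Q) (iv_iv o)).kp α (ro n fun x => (y x : Qb)) i x ∈ O := fun i m x hx => by
    have e := ro_pow n (fun x => (y x : Qb)) x
    let β : 𝓞 Qb := ⟨ro n (fun x => (y x : Qb)) x, IsIntegral.of_pow (n := pp ^ n) (pw_pos n) (by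
      rw [e]; exact (y x).2)⟩
    have e1 : β ^ pp ^ n = y x := RingOfIntegers.ext e
    have hβ : β ∉ Q := fun k => hy x hx (e1 ▸ Ideal.pow_mem_of_mem Q k _ (pw_pos n))
    have e2 : i • β = β := rt_eq (n := n) o h2 (by
      rw [← smul_pow', e1]
      exact RingOfIntegers.ext (((hb x hx).2.2 i (inP_le_dec m)).trans (by rw [hα i m x hx])))
      hβ (m β)
    have e3 : (fdQ (dec Q) (iv_iv o)).ρ i (ro n (fun x => (y x : Qb)) x) =
        ro n (fun x => (y x : Qb)) x := congrArg Subtype.val e2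
    rw [kp, hα i m x hx, e3, div_self (rt_ne hb (fun x _ => ro_pow n (fun x => (y x : Qb)) x) hx),
      ← ex_one]
    exact (fdQ (dec Q) (iv_iv o)).ex_lg (n := 0) (one_pow _)
  rw [← top_inf_eq (dec Q)]
  refine unr1 isOpen_univ o h2 le_top ((top_inf_eq (dec Q)).symm ▸ z) fun g hg j hj i m => ?_
  have im := inP_le_dec m
  rw [show (zz α S n u fun x => y x) =
    cup α S n u ((fdQ (dec Q) (iv_iv o)).kp α (ro n fun x => (y x : Qb))) from rfl]
  constructor <;> rw [cup, cup, ← sum_sub_distrib] <;> refine sum_mem fun x hx => ?_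
  · have t := d.mem j hj.2 x hx
    have := a.coc g hg.2 i im _ t
    rw [hα i m _ t] at this
    exact O_of (O_mul (add_mem this (hu i m _ t)) (O_mul (O_cy g) (c.lev j hj.2 x hx))) (by
      simp only [map_mul, cy_in o h2 m, MonoidHom.one_apply]; ring)
  · have := c.coc j hj.2 i im x hx
    rw [hα i m x hx] at this
    rw [d.mul j hj.2 i im x hx, hα i m x hx]
    exact O_of (O_mul (O_mul (a.lev g hg.2 _ (d.mem j hj.2 x hx)) (O_cy g))
      (add_mem this (O_mul (O_cy j) (k0 i m x hx)))) (by ring)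

/-- the tame value -/
theorem tm (o : Ov l Q) (h2 : l ≠ pp) {φ : GQ} (h : Fb l Q φ) (d : Ds (dec Q) α S)
    (a : C1 (dec Q) α S n 1 u) (hu : ∀ i ∈ inP Q, ∀ x ∈ S, u i x ∈ O) :
    pr (fdQ (dec Q) (iv_iv o)) α S n u (fun _ => l) = mq (∑ x ∈ S, u φ x) := by
  obtain ⟨β, hβ⟩ := P014U.Iv.ex_rt n l
  have k : P014U.Iv.Rt (dec Q) n β := P014U.Iv.rt_nat hβ o.1.ne_zero
  have hb : (fun _ => (l : Qb)) ∈ (fdQ (dec Q) (iv_iv o)).G α S := fun _ _ =>
    ⟨Nat.cast_ne_zero.2 o.1.ne_zero, trivial, fun g _ => map_natCast _ l⟩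
  rw [pr_eq (F := fdQ (dec Q) (iv_iv o)) d a hb (l := fun g _ => ku β g) ⟨fun _ => β,
    fun _ _ => hβ, fun _ _ => (ku_cont β).continuousOn, fun g hg _ _ => k.act hg⟩,
    ← P014U.Iv.iv_tame o h2 h hβ (θ := fun g => ∑ x ∈ S, u g x) ⟨⟨continuousOn_finsetSum _ a.cont,
      fun g hg j hj => ?_⟩, fun g hg => ?_, fun i m => sum_mem (hu i m)⟩]
  · exact P014U.Iv.iv_congr o fun g _ j hj => O_of (zero_mem O) (by
      rw [cup, ← sum_mul, d.sum hj (u g), P014U.Iv.cp, sub_self])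
  · rw [← d.sum hj (u g), ← sum_sub_distrib, ← sum_sub_distrib]
    exact sum_mem fun x hx => by simpa using a.coc g hg j hj x hx
  · rw [mul_sum]
    exact sum_mem (a.lev g hg)

/-- one-units are powers -/
theorem one (o : Ov l Q) (h2 : l ≠ pp) (d : Ds (dec Q) α S) (a : C1 (dec Q) α S n 1 u)
    {y : X → 𝓞 Qb} (hb : (fun x => (y x : Qb)) ∈ (fdQ (dec Q) (iv_iv o)).G α S)
    (hy : ∀ x, y x - 1 ∈ Q) : pr (fdQ (dec Q) (iv_iv o)) α S n u (fun x => y x) = 0 := by
  have n1 : ∀ c : 𝓞 Qb, c - 1 ∈ Q → c ∉ Q := fun c h k =>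
    o.2.1.ne_top ((Ideal.eq_top_iff_one _).2 (by simpa using sub_mem k h))
  have ex : ∀ x, ∃ c : 𝓞 Qb, c ^ pp ^ n = y x ∧ c - 1 ∈ Q := fun x => by
    obtain ⟨β, hβ⟩ := P014U.Iv.ex_rt n (y x)
    let b : 𝓞 Qb := ⟨β, IsIntegral.of_pow (n := pp ^ n) (pw_pos n) (by rw [hβ]; exact (y x).2)⟩
    have e : b ^ pp ^ n = y x := RingOfIntegers.ext hβ
    have p := ((ex_prim' n).toInteger_isPrimitiveRoot).pow_sub_pow_eq_prod_sub_mul 1 b (pw_pos n)
    have := o.2.1
    have r : 1 ^ pp ^ n - b ^ pp ^ n ∈ Q := by rw [one_pow, e]; simpa using neg_mem (hy x)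
    obtain ⟨ζ, h1, h3⟩ := Ideal.IsPrime.prod_mem_iff.1 (p ▸ r)
    exact ⟨ζ * b, by
      rw [mul_pow, (Polynomial.mem_nthRootsFinset (pw_pos n) 1).1 h1, one_mul, e],
      by simpa using neg_mem h3⟩
  choose c c1 c2 using ex
  refine pr_triv (F := fdQ (dec Q) (iv_iv o)) d a hb (c := fun x => c x) (fun x hx =>
    ⟨fun e => n1 _ (c2 x) (by rw [RingOfIntegers.ext (y := 0) e]; exact zero_mem _), trivial,
      fun g hg => congrArg Subtype.val (rt_eq (n := n) (x := g • c x) o h2 ?_ (n1 _ (c2 _)) ?_)⟩)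
    fun x _ => congrArg Subtype.val (c1 x)
  · rw [← smul_pow', c1, c1]
    exact RingOfIntegers.ext ((hb x hx).2.2 g hg)
  · have := sub_mem ((hg _).2 (c2 x)) (c2 (α g x))
    rwa [smul_sub, smul_one, sub_sub_sub_cancel_right] at this

end loc

/-! ## the logarithm -/

section lg

variable {R : Type} [CommRing R] {w M L E : ℕ} {κ : K} (H : Lo R w M L E κ) (f : R →+ ℤ)
  (M0 : 0 < M)
include H M0

theorem lo_one {a : R} (h : (pp : R) ^ M ∣ a - 1) : lo κ E f a ∈ O := by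
  obtain ⟨e, he⟩ := h
  rw [show a = 1 + pp ^ M * e by linear_combination he]
  exact O_of (add_mem (H.near f e M M0 (by omega)) (O_int (f e))) (by
    linear_combination (f e : K) * hn_mul M)

omit H in
theorem cop_of {a b : R} (h : (pp : R) ^ M ∣ a * b - 1) : IsCoprime a (pp : R) := by
  obtain ⟨e, he⟩ := (dvd_pow_self _ M0.ne').trans h
  exact ⟨b, -e, by linear_combination he⟩

theorem lo_mod {a a' : R} (c : IsCoprime a (pp : R)) (h : (pp : R) ^ M ∣ a' - a) :
    lo κ E f a' - lo κ E f a ∈ O := by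
  obtain ⟨b, e, he⟩ := c.pow_right (n := M)
  have h1 : (pp : R) ^ M ∣ a * b - 1 := ⟨-e, by linear_combination he⟩
  have h2 : (pp : R) ^ M ∣ a' * b - 1 := by
    simpa [sub_mul] using dvd_add (h.mul_right b) h1
  have cb := cop_of M0 (mul_comm a b ▸ h1)
  exact O_of (sub_mem (sub_mem (H.add f a b c cb) (lo_one H f M0 h1))
    (sub_mem (H.add f a' b (cop_of M0 h2) cb) (lo_one H f M0 h2))) (by ring)

end lg

/-! ## the character -/

section ch

variable {A B : ℤ} {S : Finset ℕ} {R : Type} [CommRing R] (C : Cm A B S R)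

theorem s_s (x y : Bool) (e : R) : C.s x (C.s y e) = C.s (xor x y) e := by
  cases x <;> cases y <;> simp [Cm.s, C.inv]

theorem g_j (g : GQ) (e : R) : g • C.j e = C.j (C.s (C.ep g) e) := by
  by_cases h : g ∈ C.G <;> simp [Cm.ep, Cm.s, h, C.fix, C.cj]

theorem g_act (g : GQ) (e : R) (T : Pt A B) :
    ga g (C.act e T) = C.act (C.s (C.ep g) e) (ga g T) := by
  by_cases h : g ∈ C.G <;> simp [Cm.ep, Cm.s, h, C.lin, C.sem]

theorem s_inj {x y : Bool} (h : C.j (C.s x C.ω) = C.j (C.s y C.ω)) : x = y := by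
  have := C.inj h
  cases x <;> cases y <;> simp_all [Cm.s, C.ne, C.ne.symm]

theorem ep_mul (g h : GQ) : C.ep (g * h) = xor (C.ep g) (C.ep h) :=
  s_inj C (by rw [← g_j, mul_smul, g_j, g_j, s_s])

theorem ep_mem {g : GQ} (h : g ∈ C.G) : C.ep g = false := by simp [Cm.ep, h]

theorem ep_lc : IsLocallyConstant C.ep := by
  have := (lc_act (C.j C.ω : Qb)).comp fun z => decide (z ≠ C.j C.ω)
  refine (congrArg _ (funext fun g => s_inj C ?_)).mp this
  have e : g (C.j C.ω : Qb) = C.j (C.s (C.ep g) C.ω) := congrArg Subtype.val (g_j C g _)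
  rw [Function.comp, e]
  cases C.ep g
  · simp [Cm.s]
  · rw [decide_eq_true (p := (C.j (C.s true C.ω) : Qb) ≠ C.j C.ω) fun c =>
      C.ne (C.inj (RingOfIntegers.ext c))]

theorem ds (D : Subgroup GQ) : Ds D C.al univ :=
  ⟨fun _ _ _ _ => mem_univ _, fun x _ => by simp [Cm.al, ep_mem C (one_mem _)],
    fun g _ h _ x _ => by simp [Cm.al, ep_mul], fun x _ => .of_lc ((ep_lc C).comp (xor · x))⟩

theorem em_G {D : Subgroup GQ} {ι : (GQ → GQ → K) → K ⧸ O} (i : Iv D ι) {e : R} (h : e ≠ 0) :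
    C.em e ∈ (fdQ D i).G C.al univ := fun x _ =>
  ⟨fun c => h (by
    have := s_s C x x e
    rw [C.inj ((RingOfIntegers.ext c).trans C.j.map_zero.symm), map_zero, Bool.xor_self] at this
    exact this.symm), trivial, fun g _ => by
    have := congrArg Subtype.val (g_j C g (C.s x e))
    rw [s_s] at this
    exact this⟩

theorem em_mul (e e' : R) : C.em (e * e') = C.em e * C.em e' := by
  ext x
  simp [Cm.em]

include C in
theorem int_inj {a b : ℤ} (h : (a : R) = b) : a = b := by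
  simpa using congrArg C.j h

theorem nm_mul (e e' : R) : C.nm (e * e') = C.nm e * C.nm e' :=
  int_inj C (by rw [Int.cast_mul, C.nme, C.nme, C.nme, map_mul]; ring)

theorem nm_dvd {l : ℕ} {Q : Ideal (𝓞 Qb)} (o : Ov l Q) {e : R} {x : Bool}
    (h : C.j (C.s x e) ∈ Q) : (l : ℤ) ∣ C.nm e := by
  rw [← int_mem o, ← map_intCast C.j, C.nme, map_mul]
  cases x
  exacts [Q.mul_mem_right _ h, Q.mul_mem_left _ h]

include C in
theorem not_unit {l : ℕ} (h : l.Prime) : ¬ IsUnit (l : R) := fun u => by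
  obtain ⟨Q, o⟩ := P022K.GW.Pl.ex_ov h
  exact o.2.1.ne_top (Q.eq_top_of_isUnit_mem o.2.2 (by simpa using u.map C.j))

variable {C} {M L E : ℕ} {κ : K} {T : Pt A B} (G : C.Gen M T)

/-- the character -/
abbrev ac (C : Cm A B S R) (T : Pt A B) (g : GQ) : R := C.co T (ga g T)

include G

theorem ac_spec (g : GQ) : C.act (ac C T g) T = ga g T :=
  Function.invFun_eq (G.sp _ (by rw [← map_nsmul, G.tor, map_zero]))

theorem ac_eq {g : GQ} {e : R} (h : ga g T = C.act e T) : (pp : R) ^ M ∣ ac C T g - e :=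
  G.fr _ (by rw [map_sub]; exact sub_eq_zero.2 ((ac_spec G g).trans h))

theorem ac_mul (g h : GQ) :
    (pp : R) ^ M ∣ ac C T (g * h) - C.s (C.ep g) (ac C T h) * ac C T g :=
  ac_eq G (by rw [ga_mul, ← ac_spec G h, g_act, map_mul, ← ac_spec G g]; rfl)

theorem ac_fix {g : GQ} (h : ga g T = T) : (pp : R) ^ M ∣ ac C T g - 1 :=
  ac_eq G (by rw [h, map_one]; rfl)

omit G in
theorem s_dvd (x : Bool) {a : R} (h : (pp : R) ^ M ∣ a) : (pp : R) ^ M ∣ C.s x a := by
  simpa using map_dvd (C.s x) h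

omit G in
theorem s_cop (x : Bool) {a : R} {q : ℕ} (h : IsCoprime a (q : R)) : IsCoprime (C.s x a) (q : R) := by
  simpa using h.map (C.s x)

theorem ac_cop (M0 : 0 < M) (g : GQ) : IsCoprime (ac C T g) (pp : R) := by
  have := dvd_sub (ac_fix G (g := g * g⁻¹) (by rw [mul_inv_cancel, ga_one])) (ac_mul G g g⁻¹)
  rw [sub_sub_sub_cancel_left, mul_comm] at this
  exact cop_of M0 this

omit G in
theorem la_eq (f : R →+ ℤ) (g : GQ) (x : Bool) :
    La C T κ E f g x = lo κ E f (C.s (C.al g x) (ac C T g)) := by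
  simp [La, lo]

variable (H : Lo R C.w M L E κ) (f : R →+ ℤ) (M0 : 0 < M)
include H M0

theorem la_of {g : GQ} {e : R} (h : (pp : R) ^ M ∣ e - ac C T g) (x : Bool) :
    lo κ E f (C.s (C.al g x) e) - La C T κ E f g x ∈ O := by
  rw [la_eq]
  exact lo_mod H f M0 (s_cop _ (ac_cop G M0 g)) (map_sub (C.s _) _ _ ▸ s_dvd _ h)

theorem la_c1 (D : Subgroup GQ) : C1 D C.al univ L 1 (La C T κ E f) := by
  refine ⟨fun x _ => ((Lc.of_lc (ep_lc C)).two (Lc.of_lc (P014T.Cp.lc_ga T)) fun y U =>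
    lo κ E (f.comp (C.s (xor y x)).toAddMonoidHom) (C.co T U)).cont,
    fun g _ x _ => H.lev _ _ (ac_cop G M0 g), fun g _ h _ x _ => ?_⟩
  have a := la_of G H f M0 (dvd_sub_comm.1 (ac_mul G g h)) x
  have b := H.add f _ _ (s_cop (C := C) (C.al h x) (ac_cop G M0 h))
    (s_cop (C := C) (C.al g (C.al h x)) (ac_cop G M0 g))
  rw [map_mul, s_s, show xor (C.al (g * h) x) (C.ep g) = C.al h x by
    simp only [Cm.al, ep_mul]; cases C.ep g <;> cases C.ep h <;> cases x <;> rfl,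
    (ds C ⊤).mul g trivial h trivial x (mem_univ _)] at a
  rw [← la_eq, ← la_eq] at b
  exact O_of (sub_mem b a) (by rw [MonoidHom.one_apply]; ring)

theorem la_in {l : ℕ} {Q : Ideal (𝓞 Qb)} (o : Ov l Q) (hl : l ∉ S) {i : GQ} (m : i ∈ inP Q)
    (x : Bool) : C.al i x = x ∧ La C T κ E f i x ∈ O := by
  obtain ⟨a, b⟩ := C.unr l Q o hl i m
  refine ⟨by simp [Cm.al, ep_mem C a], ?_⟩
  rw [la_eq]
  exact lo_one H f M0 (by simpa using s_dvd (C.al i x) (ac_fix G (b T ⟨M, G.tor⟩)))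

omit G M0 in
theorem lo_unit {e : R} (h : IsUnit e) : lo κ E f e = 0 := by
  obtain ⟨k, rfl⟩ := H.dv
  simp [lo, pow_mul, C.un e h]

variable (pS : pp ∈ S) {l : ℕ} {Q : Ideal (𝓞 Qb)} (o : Ov l Q) (hl : l ∉ S)
include pS o hl

theorem un_zero {y : Bool → 𝓞 Qb}
    (hb : (fun x => (y x : Qb)) ∈ (fdQ (dec Q) (iv_iv o)).G C.al univ) (hy : ∀ x, y x ∉ Q) :
    B2 cy (dec Q) (zz C.al univ L (La C T κ E f) fun x => y x) :=
  unr o (fun e => hl (e ▸ pS)) (ds C _) (la_c1 G H f M0 _) hb (fun x _ => hy x)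
    (fun _ m x _ => (la_in G H f M0 o hl m x).1) fun _ m x _ => (la_in G H f M0 o hl m x).2

/-- the local value at a prime element -/
theorem loc {e : R} (h : (l : ℤ) ∣ C.nm e) : ∃ ϖ, ϖ ∣ e ∧ IsCoprime ϖ (pp : R) ∧
    (∀ q : ℕ, q.Prime → (q : ℤ) ∣ C.nm ϖ → q = l) ∧ (l : ℤ) ∣ C.nm ϖ ∧
    pr (fdQ (dec Q) (iv_iv o)) C.al univ L (La C T κ E f) (C.em ϖ) = mq (lo κ E f ϖ) := by
  have h2 : l ≠ pp := fun e => hl (e ▸ pS)
  obtain ⟨φ, hφ⟩ := exists_phi o.1 o.2.1 o.2.2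
  have dv : (l : R) ∣ e * C.σ e := by
    rw [← C.nme]
    simpa using map_dvd (Int.castRingHom R) h
  have cl : IsCoprime (l : R) (pp : R) := by
    simpa using (Nat.isCoprime_iff_coprime.2 ((Nat.coprime_primes o.1 pp_prime).2 h2)).map
      (Int.castRingHom R)
  have pq : ∀ q : ℕ, q.Prime → (q : ℤ) ∣ l → q = l := fun q hq d =>
    (Nat.prime_dvd_prime_iff_eq hq o.1).1 (Int.natCast_dvd_natCast.1 d)
  have a := la_c1 G H f M0 (dec Q)
  have d := ds C (dec Q)
  have tT : T ∈ T2 A B := ⟨M, G.tor⟩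
  by_cases m : φ ∈ C.G
  · obtain ⟨π, p1, p2, p3, p4, p5⟩ := C.spl l Q φ o hl hφ m
    obtain ⟨y, hy⟩ : ∃ y, C.s y π ∣ e := (p1.dvd_or_dvd ((Dvd.intro _ p2).trans dv)).elim
      (fun k => ⟨false, k⟩) fun k => ⟨true, by simpa [Cm.s, C.inv] using map_dvd C.σ k⟩
    have le : ∀ g ∈ dec Q, g ∈ C.G := fun g hg => by_contra fun k =>
      p4 (C.cj g k π ▸ (hg _).2 p3)
    have al : ∀ g ∈ dec Q, ∀ x, C.al g x = x := fun g hg x => by simp [Cm.al, ep_mem C (le g hg)]
    have nm : C.nm (C.s y π) = l := int_inj C (by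
      rw [C.nme, Int.cast_natCast, ← p2]
      cases y <;> simp [Cm.s, C.inv, mul_comm])
    have gr : ∀ r : Bool → R, (∀ x, r x ≠ 0) →
        (fun x => (C.j (r x) : Qb)) ∈ (fdQ (dec Q) (iv_iv o)).G C.al univ := fun r hr x _ =>
      ⟨fun c => hr x (C.inj ((RingOfIntegers.ext c).trans C.j.map_zero.symm)), trivial,
        fun g hg => by rw [al g hg]; exact congrArg Subtype.val (C.fix g (le g hg) _)⟩
    have s0 : C.σ π ≠ 0 := fun c => p4 (by rw [c, map_zero]; exact zero_mem _)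
    have l0 : (l : R) ≠ 0 := fun c => o.1.ne_zero (by simpa using congrArg C.j c)
    have n1 : C.j 1 ∉ Q := fun k => o.2.1.ne_top ((Ideal.eq_top_iff_one _).2 (by simpa using k))
    have gz : ∀ t : Bool → Prop, (fun x => (C.j (if t x then C.σ π else 1) : Qb)) ∈
        (fdQ (dec Q) (iv_iv o)).G C.al univ := fun t => gr _ fun x => by
      split_ifs; exacts [s0, fun c => l0 (by rw [← mul_one (l : R), c, mul_zero])]
    have z : ∀ t : Bool → Prop, pr (fdQ (dec Q) (iv_iv o)) C.al univ L (La C T κ E f)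
        (fun x => C.j (if t x then C.σ π else 1)) = 0 := fun t =>
      P014U.Iv.iv_b2 o (un_zero G H f M0 pS o hl (gz t) fun x => by split_ifs; exacts [p4, n1])
    have hW : ∀ g ∈ dec Q, ∀ x ∈ (univ : Finset Bool), (if C.al g x = y then 1 else 0 : ℤ) =
        if x = y then 1 else 0 := fun g hg x _ => by rw [al g hg]
    have gl : (fun _ => (l : Qb)) ∈ (fdQ (dec Q) (iv_iv o)).G C.al univ := fun _ _ =>
      ⟨Nat.cast_ne_zero.2 o.1.ne_zero, trivial, fun g _ => map_natCast _ l⟩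
    have ge := em_G C (iv_iv o) (e := C.s y π) fun c => o.1.ne_zero (by
      have : C.nm (C.s y π) = 0 := int_inj C (by rw [C.nme, c]; simp)
      exact_mod_cast nm.symm.trans this)
    have e1 := pr_mul (F := fdQ (dec Q) (iv_iv o)) d a ge (gz (· = y))
    have e2 := pr_mul (F := fdQ (dec Q) (iv_iv o)) d a (G_wt gl (W := fun x => if x = y then 1 else 0) hW)
      (gz (· ≠ y))
    have e3 := pr_wt (F := fdQ (dec Q) (iv_iv o)) d a gl (W := fun x => if x = y then 1 else 0) hW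
    rw [tm o h2 hφ d (c1_wt (F := fdQ (dec Q) (iv_iv o)) a
      (W := fun x => if x = y then 1 else 0) hW) fun i m x _ =>
      O_mul (O_int _) (la_in G H f M0 o hl m x).2] at e3
    rw [z, add_zero] at e1 e2
    have b := la_of G H f M0 (dvd_sub_comm.1 (ac_eq G (p5 T tT))) y
    rw [al φ (phi_mem o.1 o.2.1 hφ)] at b
    refine ⟨_, hy, IsCoprime.of_mul_left_left (y := C.σ (C.s y π)) (by
      rw [← C.nme, nm]; simpa using cl), fun q hq k => pq q hq (nm ▸ k), nm ▸ dvd_rfl, ?_⟩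
    rw [← e1, show C.em (C.s y π) * _ = _ from funext fun x => ?_, e2, ← e3, mq_eq]
    · exact O_of (neg_mem b) (by simp)
    · have : (C.j π : Qb) * C.j (C.σ π) = l := by
        simpa using congrArg (fun t => (C.j t : Qb)) p2
      cases x <;> cases y <;> simp [Cm.em, Cm.s, C.inv, this]
  · obtain ⟨p1, ζ, p2, p3⟩ := C.ine l Q φ o hl hφ m
    have nm : C.nm l = l * l := int_inj C (by rw [C.nme]; simp)
    refine ⟨l, (p1.dvd_or_dvd dv).elim id fun k => by simpa [C.inv] using map_dvd C.σ k, cl,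
      fun q hq k => pq q hq (((Nat.prime_iff_prime_int.1 hq).dvd_or_dvd (nm ▸ k)).elim id id),
      nm ▸ dvd_mul_right _ _, ?_⟩
    rw [show C.em l = fun _ => (l : Qb) from funext fun x => by simp [Cm.em],
      tm o h2 hφ d a fun i m x _ => (la_in G H f M0 o hl m x).2, mq_eq, Fintype.sum_bool, la_eq,
      la_eq]
    have e1 : C.ep φ = true := by simp [Cm.ep, m]
    have c := ac_cop G M0 φ
    have b1 := H.add f _ _ (s_cop (C := C) true c) (s_cop (C := C) false c)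
    have b2 := lo_mod H f M0 ((s_cop (C := C) true c).mul_left (s_cop (C := C) false c))
      (a' := ζ * l) (by
      have := dvd_sub (ac_mul G φ φ) (ac_eq G (p3 T tT))
      rw [sub_sub_sub_cancel_left, e1] at this
      exact this)
    have b3 := H.add f ζ l (p2.elim fun v hv => hv ▸ ⟨(v⁻¹ : Rˣ), 0, by simp⟩) cl
    rw [lo_unit H f p2] at b3
    exact O_of (sub_mem (sub_mem b3 b2) b1) (by
      simp only [Cm.al, e1, Bool.xor_self, Bool.xor_false]; ring)

omit o hl in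
/-- reciprocity -/
theorem rcp {Q : ℕ → Ideal (𝓞 Qb)} (o : ∀ q : ℕ, q.Prime → Ov q (Q q)) {S' : Finset ℕ}
    (pr : ∀ q ∈ S', q.Prime) (sub : S ⊆ S') {e : R} (e0 : e ≠ 0)
    (he : ∀ q : ℕ, q.Prime → (q : ℤ) ∣ C.nm e → q ∈ S') :
    ∑ q ∈ S', P014U.Iv.iv (Q q) (zz C.al univ L (La C T κ E f) (C.em e)) = 0 :=
  P014U.Iv.rec0 (cup_z2 (ds C ⊤) (la_c1 G H f M0 ⊤) ((ku_kp (F := fdQ ⊤ iv0) (ds C ⊤)
    (em_G C iv0 e0) fun x _ => ro_pow L (C.em e) x).c1 (ds C ⊤) (em_G C iv0 e0))) S' Q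
    (fun q m => o q (pr q m)) fun q hq m => ⟨_, o q hq, un_zero G H f M0 pS (o q hq)
      (fun k => m (sub k)) (em_G C _ e0) fun x k => m (he q hq (nm_dvd C (o q hq) k))⟩

omit o hl in
theorem glob {Q : ℕ → Ideal (𝓞 Qb)} (o : ∀ q : ℕ, q.Prime → Ov q (Q q)) (pr : ∀ q ∈ S, q.Prime)
    (e : R) (h : ∀ q ∈ S, IsCoprime e (q : R)) :
    ∑ q ∈ S, P014U.Iv.iv (Q q) (zz C.al univ L (La C T κ E f) (C.em e)) = -mq (lo κ E f e) := by
  have ne : ∀ e : R, IsCoprime e (pp : R) → e ≠ 0 := fun e c k =>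
    not_unit C pp_prime (isCoprime_zero_left.1 (k ▸ c))
  induction hn : (C.nm e).natAbs using Nat.strong_induction_on generalizing e with
  | _ n ih =>
  subst hn
  by_cases u : (C.nm e).natAbs = 1
  · have : IsUnit e := isUnit_of_mul_isUnit_left (y := C.σ e) (by
      rw [← C.nme]; exact (Int.isUnit_iff_natAbs_eq.2 u).map (Int.castRingHom R))
    rw [lo_unit H f this, map_zero, neg_zero]
    exact rcp G H f M0 pS o pr subset_rfl (ne e (h _ pS)) fun q hq d =>
      absurd (u ▸ Int.natCast_dvd.1 d) hq.not_dvd_one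
  obtain ⟨l, l1, l2⟩ := Nat.exists_prime_and_dvd u
  rw [← Int.natCast_dvd] at l2
  have hl : l ∉ S := fun m => not_unit C l1 (by
    have := (h l m).mul_left (s_cop (C := C) true (h l m))
    exact this.isUnit_of_dvd' (by
      rw [Cm.s, if_pos rfl, ← C.nme]; simpa using map_dvd (Int.castRingHom R) l2) dvd_rfl)
  obtain ⟨ϖ, ⟨e', rfl⟩, c, h1, h2, h3⟩ := loc G H f M0 pS (o l l1) hl l2
  have c' := (h _ pS).of_mul_left_right
  have a := rcp G H f M0 pS o (S' := insert l S) (by simpa [l1] using pr) (subset_insert _ _)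
    (ne ϖ c) fun q hq d => h1 q hq d ▸ mem_insert_self _ _
  rw [sum_insert hl, ← pr_zz (o l l1), h3] at a
  have b := ih _ (by
    have n0 : ∀ t : R, t ≠ 0 → C.nm t ≠ 0 := fun t t0 k => by
      have := congrArg C.j (C.nme t)
      rw [k, Int.cast_zero, map_zero, map_mul, eq_comm, mul_eq_zero, ← C.j.map_zero] at this
      exact t0 (this.elim (fun k => C.inj k) fun k => by rw [← C.inv t, C.inj k, map_zero])
    rw [nm_mul, Int.natAbs_mul]
    exact lt_mul_of_one_lt_left (Int.natAbs_pos.2 (n0 _ (ne e' c'))) (l1.one_lt.trans_le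
      (Nat.le_of_dvd (Int.natAbs_pos.2 (n0 _ (ne ϖ c))) (Int.natCast_dvd.1 h2)))) e'
    (fun q m => (h q m).of_mul_left_right) rfl
  rw [em_mul, sum_congr rfl (g := fun q =>
    P014U.Iv.iv (Q q) (zz C.al univ L (La C T κ E f) (C.em ϖ)) +
      P014U.Iv.iv (Q q) (zz C.al univ L (La C T κ E f) (C.em e'))) fun q m =>
    pr_mul (F := fdQ _ (iv_iv (o q (pr q m)))) (ds C _) (la_c1 G H f M0 _) (em_G C _ (ne ϖ c))
      (em_G C _ (ne e' c')), sum_add_distrib, b, eq_neg_of_add_eq_zero_right a, ← neg_add, ← map_add, neg_inj, eq_comm, mq_eq]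
  exact O_of (H.add f ϖ e' c c') (by ring)

end ch

end Go

open Go

variable [Pp]

/-- **global reciprocity for the logarithm of the character** -/
theorem glo : GLO := by
  intro A B S R _ C pS pr M L E κ T f M0 G H
  refine ⟨la_c1 G H f M0 ⊤, fun P o e c h => ?_⟩
  obtain ⟨Q, q1, q2⟩ : ∃ Q : ℕ → Ideal (𝓞 Qb), (∀ q : ℕ, q.Prime → Ov q (Q q)) ∧ Q pp = P := by
    choose! Q hQ using fun q : ℕ => P022K.GW.Pl.ex_ov (l := q)
    exact ⟨Function.update Q pp P, fun q hq => by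
      by_cases k : q = pp
      · subst k; rwa [Function.update_self]
      · rw [Function.update_of_ne k]; exact hQ q hq, Function.update_self ..⟩
  subst q2
  rw [← glob G H f M0 pS q1 pr e fun q m => ?_, sum_eq_single_of_mem pp pS fun q m k => ?_]
  · rfl
  · exact one (q1 q (pr q m)) k (ds C _) (la_c1 G H f M0 _) (y := fun x => C.j (C.s x e))
      (em_G C _ fun t => not_unit C pp_prime (isCoprime_zero_left.1 (t ▸ c))) fun x => by
        obtain ⟨t, ht⟩ := h q m k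
        have := congrArg (fun r => C.j (C.s x r)) ht
        simp only [map_sub, map_one, map_mul, map_natCast] at this
        exact this ▸ Ideal.mul_mem_right _ _ (q1 q (pr q m)).2.2
  · by_cases k : q = pp
    · exact k ▸ c
    · obtain ⟨t, ht⟩ := h q m k
      exact ⟨1, -t, by linear_combination ht⟩

end Vale.Agent.P014X.Rx
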