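import Vale.Agent.P014X.Rx.St

/-!
# P014X, block RECX: the truncated logarithm, approximation (rows LOG, APX; helper86)
-/

set_option autoImplicit false
set_option linter.all false

open NumberField
open scoped Classical

noncomputable section

namespace Vale.Agent.P014X.Rx

open Vale.Agent.P014U
open Vale.Agent.P022 (Qb GQ)
open Vale.Agent.P022D.W (dec)
open X4S.Ga (K O mem_O)
open X4S.Aq (O_of O_mul O_pow)
open X4F.Rc (hn hn_mul)
open Ah (Ind am vl nrm_am)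

variable [Pp]

namespace Lg

section

variable {R : Type} [CommRing R]

theorem fin (ω : R) (h : ∀ e : R, ∃ a b : ℤ, e = a + b * ω) :
    Finite (R ⧸ Ideal.span {(pp : R)}) := by
  have p0 : (0 : ℤ) < pp := Int.natCast_pos.2 pp_pos
  refine Finite.of_surjective (fun x : Set.Ico (0 : ℤ) pp × Set.Ico (0 : ℤ) pp =>
    Ideal.Quotient.mk _ ((x.1.1 : R) + x.2.1 * ω)) fun e => ?_
  obtain ⟨e, rfl⟩ := Ideal.Quotient.mk_surjective e
  obtain ⟨a, b, rfl⟩ := h e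
  refine ⟨(⟨a % pp, Int.emod_nonneg _ p0.ne', Int.emod_lt_of_pos _ p0⟩,
    ⟨b % pp, Int.emod_nonneg _ p0.ne', Int.emod_lt_of_pos _ p0⟩),
    Ideal.Quotient.eq.2 (Ideal.mem_span_singleton.2 ⟨-((a / pp : ℤ) + (b / pp : ℤ) * ω), ?_⟩)⟩
  simp only [Int.emod_def]
  push_cast
  ring

theorem ex_pow (ω : R) (h : ∀ e : R, ∃ a b : ℤ, e = a + b * ω) : ∃ n, n ≠ 0 ∧
    ∀ a : R, IsCoprime a (pp : R) → (pp : R) ∣ a ^ n - 1 := by
  have := fin ω h
  refine ⟨Nat.card (R ⧸ Ideal.span {(pp : R)})ˣ, Nat.card_pos.ne', fun a ⟨u, v, e⟩ => ?_⟩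
  have k : IsUnit (Ideal.Quotient.mk (Ideal.span {(pp : R)}) a) :=
    IsUnit.of_mul_eq_one (Ideal.Quotient.mk _ u) (by
      rw [← map_mul, ← map_one (Ideal.Quotient.mk _)]
      exact Ideal.Quotient.eq.2 (Ideal.mem_span_singleton.2 ⟨-v, by rw [← e]; ring⟩))
  have := congrArg Units.val (pow_card_eq_one' (x := k.unit))
  rw [Units.val_pow_eq_pow_val, k.unit_spec, Units.val_one, ← map_pow,
    ← map_one (Ideal.Quotient.mk _)] at this
  exact Ideal.mem_span_singleton.1 (Ideal.Quotient.eq.1 this)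

theorem pw {k : ℕ} (hk : 0 < k) (x : R) (j : ℕ) : ∃ y,
    (1 + (pp : R) ^ k * x) ^ pp ^ j = 1 + pp ^ j * pp ^ k * (x + pp ^ k * y) :=
  ZMod.exists_one_add_mul_pow_prime_pow_eq pp_prime dvd_rfl (by
    rw [← pow_succ', ← pow_add, ← pow_mul]
    exact pow_dvd_pow _ (by nlinarith [two_lt])) x j

theorem pq (z : R) (n : ℕ) : ∃ y, (1 + z) ^ n - 1 = n * z + z ^ 2 * y :=
  (sq_dvd_add_pow_sub_sub z 1 n).imp fun y e => by
    rw [one_pow, one_pow] at e
    linear_combination e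

theorem map_pw (f : R →+ ℤ) (n : ℕ) (x : R) : (f ((n : R) * x) : K) = n * f x := by
  rw [← nsmul_eq_mul, map_nsmul, nsmul_eq_mul, Int.cast_mul, Int.cast_natCast]

end

theorem inv_O {q : ℕ} (h : ¬ pp ∣ q) : (q : K)⁻¹ ∈ O := by
  rw [mem_O, norm_inv, Padic.norm_natCast_eq_one_iff.2 (pp_prime.coprime_iff_not_dvd.2 h), inv_one]

theorem nz {q : ℕ} (h : ¬ pp ∣ q) : (q : K) ≠ 0 := Nat.cast_ne_zero.2 fun e => h (e ▸ dvd_zero _)

theorem nsub (a b : ℂ_[pp]) : ‖a - b‖ ≤ max ‖a‖ ‖b‖ := by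
  rw [sub_eq_add_neg, ← norm_neg b]
  exact IsUltrametricDist.norm_add_le_max _ _

end Lg

open Lg in
/-- **row LOG** -/
theorem log0 : LOG := fun R _ ω h w M hw => by
  obtain ⟨n, n0, hn'⟩ := ex_pow ω h
  obtain ⟨s, q, hq, e⟩ := Nat.exists_eq_pow_mul_and_not_dvd (mul_ne_zero hw n0) pp pp_prime.ne_one
  have p0 : (pp : K) ≠ 0 := Nat.cast_ne_zero.2 pp_ne
  have q0 := nz hq
  have dv : ∀ a : R, IsCoprime a (pp : R) → ∃ x,
      a ^ (w * n * pp ^ (M + s)) - 1 = ((pp ^ (M + s) : ℕ) : R) * x := fun a ha => by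
    obtain ⟨x, hx⟩ := hn' _ (ha.pow_left (m := w))
    obtain ⟨y, hy⟩ := pw one_pos x (M + s)
    rw [pow_mul, pow_mul, ← sub_add_cancel ((a ^ w) ^ n) 1, hx, add_comm, ← pow_one (pp : R), hy]
    exact ⟨pp ^ 1 * (x + pp ^ 1 * y), by push_cast; ring⟩
  refine ⟨M + s, w * n * pp ^ (M + s), hn (2 * (M + s)) * (q : K)⁻¹, Nat.le_add_right _ _,
    (dvd_mul_right _ _).mul_right _, fun f a ha => ?_, fun f a b ha hb => ?_, fun f x k hk le => ?_⟩
  · obtain ⟨x, hx⟩ := dv a ha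
    refine O_of (O_mul (inv_O hq) (O_int (f x))) ?_
    rw [lo, hx, map_pw, hn]
    push_cast
    field_simp
    ring
  · obtain ⟨x, hx⟩ := dv a ha
    obtain ⟨y, hy⟩ := dv b hb
    refine O_of (O_mul (inv_O hq) (O_int (f (x * y)))) ?_
    have : (a * b) ^ (w * n * pp ^ (M + s)) - 1 = ((pp ^ (2 * (M + s)) : ℕ) : R) * (x * y) +
        (a ^ (w * n * pp ^ (M + s)) - 1) + (b ^ (w * n * pp ^ (M + s)) - 1) := by
      rw [mul_pow, ← sub_add_cancel (a ^ _) 1, ← sub_add_cancel (b ^ _) 1, hx, hy]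
      push_cast
      ring
    rw [lo, lo, lo, this, map_add, map_add, Int.cast_add, Int.cast_add, map_pw, hn]
    push_cast
    field_simp
    ring
  · obtain ⟨y, hy⟩ := pw hk x (s + (M + s))
    obtain ⟨z, hz⟩ := pq ((pp : R) ^ (s + (M + s)) * pp ^ k * (x + pp ^ k * y)) q
    obtain ⟨d, hd⟩ := Nat.exists_eq_add_of_le le
    have : (1 + (pp : R) ^ k * x) ^ (w * n * pp ^ (M + s)) - 1 =
        ((q * pp ^ (s + (M + s) + k) : ℕ) : R) * x + ((q * pp ^ (2 * (M + s) + d) : ℕ) : R) * y +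
        ((pp ^ (2 * (M + s)) : ℕ) : R) * ((pp ^ (s + k) * (x + pp ^ k * y)) ^ 2 * z) := by
      rw [e, mul_right_comm, ← pow_add, pow_mul, hy, hz,
        show 2 * (M + s) + d = s + (M + s) + k + k by omega]
      push_cast
      ring
    refine O_of (add_mem (O_mul (O_pow d) (O_int (f y))) (O_mul (inv_O hq)
      (O_int (f ((pp ^ (s + k) * (x + pp ^ k * y)) ^ 2 * z))))) ?_
    rw [lo, this, map_add, map_add, Int.cast_add, Int.cast_add, map_pw, map_pw, map_pw, hn, hn]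
    push_cast
    field_simp
    ring

/-- **row APX** -/
theorem apx : APX := fun A B S R _ C ι P I => by
  have p1 : (1 : ℝ) < pp := Nat.one_lt_cast.2 one_lt
  have p0 : (0 : ℝ) < pp := one_pos.trans p1
  obtain ⟨δ, hδ⟩ : ∃ δ, δ = C.em C.ω false - C.em C.ω true := ⟨_, rfl⟩
  have d0 : δ ≠ 0 := hδ ▸ sub_ne_zero.2 fun e => C.ne (C.inj (Subtype.ext e)).symm
  have em : ∀ (g : GQ) e x, g (C.em e x) = C.em e (C.al g x) := fun g e x => by
    by_cases hg : g ∈ C.G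
    · rw [Cm.al, Cm.ep, decide_eq_false (not_not.2 hg), Bool.false_xor]
      exact congrArg Subtype.val (C.fix g hg _)
    · rw [Cm.al, Cm.ep, decide_eq_true hg]
      refine (congrArg Subtype.val (C.cj g hg _)).trans ?_
      cases x <;> simp [Cm.em, Cm.s, C.inv] <;> rfl
  obtain ⟨a, ha⟩ := pow_unbounded_of_one_lt ‖ι δ‖⁻¹ p1
  refine ⟨a, fun v r L m hv hm le => ?_⟩
  have n0 : 0 < ‖ι δ‖ := norm_pos_iff.2 ((map_ne_zero ι).2 d0)
  have nm : ∀ e x, ‖ι (C.em e x)‖ ≤ 1 := fun e x => Ah.nrm_int ι _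
  obtain ⟨u, hu⟩ : ∃ u, u = (v false - v true) / δ := ⟨_, rfl⟩
  obtain ⟨t, ht⟩ : ∃ t, t = v false - u * C.em C.ω false := ⟨_, rfl⟩
  have vx : ∀ x, v x = t + u * C.em C.ω x := fun x => by
    cases x
    · rw [ht, sub_add_cancel]
    · rw [ht, hu]
      field_simp
      rw [hδ]
      ring
  have fu : Ah.Fx P u := fun g hg => by
    rw [hu, map_div₀, map_sub, hv g hg, hv g hg, hδ, map_sub, em, em, Cm.al, Cm.al]
    cases C.ep g
    · rfl
    · rw [← neg_div_neg_eq, neg_sub, neg_sub]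
      rfl
  have ft : Ah.Fx P t := fun g hg => by
    rw [ht, map_sub, map_mul, hv g hg, em, fu g hg, vx, ht, add_sub_cancel_right]
  have b0 : ∀ x, ‖ι (v x)‖ * pp ^ r ≤ ‖ι δ‖ := fun x => by
    have := le x
    rw [pow_add, ← mul_assoc, ← le_div_iff₀ (pow_pos p0 a), one_div] at this
    exact this.trans (inv_le_of_inv_le₀ n0 ha.le)
  have d1 : ‖ι δ‖ ≤ 1 := by
    rw [hδ, map_sub]
    exact (Lg.nsub _ _).trans (max_le (nm _ _) (nm _ _))
  have b1 : ‖ι u‖ * pp ^ r ≤ 1 := by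
    rw [hu, map_div₀, norm_div, div_mul_eq_mul_div, div_le_one n0, map_sub]
    refine (mul_le_mul_of_nonneg_right (Lg.nsub _ _)
      (pow_pos p0 r).le).trans ?_
    rw [max_mul_of_nonneg _ _ (pow_pos p0 r).le]
    exact max_le (b0 _) (b0 _)
  have b2 : ‖ι t‖ * pp ^ r ≤ 1 := by
    rw [ht, map_sub]
    refine (mul_le_mul_of_nonneg_right (Lg.nsub _ _)
      (pow_pos p0 r).le).trans ?_
    rw [max_mul_of_nonneg _ _ (pow_pos p0 r).le, map_mul, norm_mul, mul_right_comm]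
    exact max_le ((b0 _).trans d1) (mul_le_one₀ b1 (norm_nonneg _) (nm _ _))
  have np : ∀ n : ℕ, ‖hn n‖ = (pp : ℝ) ^ n := fun n => by
    rw [hn, norm_inv, norm_pow, Padic.norm_p, inv_pow, inv_inv]
  have key : ∀ y, Ah.Fx P y → ‖ι y‖ * pp ^ r ≤ 1 →
      ∃ n : ℕ, ‖ι (pp ^ r * (m * n) - y)‖ * pp ^ L ≤ 1 := fun y fy by' => by
    obtain ⟨n, k⟩ := X4F.Rc.apx L (O_mul (Lg.inv_O hm) (show hn r * vl ι y ∈ O by
      rwa [mem_O, norm_mul, np, I.vl_nrm fy, mul_comm]))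
    refine ⟨n, ?_⟩
    have e : ι (pp ^ r * (m * n) - y) = am (pp ^ r * (m * n) - vl ι y) := by
      simp only [map_sub, map_mul, map_pow, map_natCast, I.vl fy]
    rw [e, nrm_am, ← np, ← norm_mul, ← mem_O]
    refine O_of (neg_mem (O_mul (O_mul (O_pow r) (X4F.Rc.O_nat m)) k)) ?_
    have := Lg.nz hm
    linear_combination (hn L * vl ι y) * (hn_mul r) +
      ((pp : K) ^ r * hn r * hn L * vl ι y) * mul_inv_cancel₀ this
  obtain ⟨n₀, k₀⟩ := key t ft b2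
  obtain ⟨n₁, k₁⟩ := key u fu b1
  refine ⟨m * (n₀ + n₁ * C.ω), dvd_mul_right _ _, fun x => ?_⟩
  have e : (pp : Qb) ^ r * C.em (m * (n₀ + n₁ * C.ω)) x - v x =
      (pp ^ r * (m * n₀) - t) + (pp ^ r * (m * n₁) - u) * C.em C.ω x := by
    rw [vx, Cm.em, Cm.em]
    simp only [map_mul, map_add, map_natCast]
    ring
  rw [e, map_add]
  refine (mul_le_mul_of_nonneg_right (IsUltrametricDist.norm_add_le_max _ _)
    (pow_pos p0 L).le).trans ?_
  rw [max_mul_of_nonneg _ _ (pow_pos p0 L).le, map_mul, norm_mul, mul_right_comm]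
  exact max_le k₀ (mul_le_one₀ k₁ (norm_nonneg _) (nm _ _))

end Vale.Agent.P014X.Rx
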