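import Vale.Agent.P014X.Rx.St

/-! # P014X, block RECX: the first order expansion (row TAY, helper37) -/

set_option autoImplicit false
set_option linter.all false

open scoped Classical
open WeierstrassCurve WeierstrassCurve.Affine P179W NumberField Filter

noncomputable section

namespace Vale.Agent.P014X.Rx

namespace Ty

open Vale.Agent.P014T.Lc
open P004H.H666 (crv)

section val

variable {K Γ : Type} [Field K] [LinearOrderedCommGroupWithZero Γ] {v : Valuation K Γ} {a b : K}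
  {Q R T Y : (crv a b).Point}

/-- the first coordinate -/
def cx : (crv a b).Point → K
  | .zero => 0
  | .some x _ _ => x

/-- the second coordinate -/
def cy : (crv a b).Point → K
  | .zero => 0
  | .some _ y _ => y

theorem cx_le (h : ¬ KerV v Q) : v (cx Q) ≤ 1 := by
  rcases Q with _ | _
  exacts [(h trivial).elim, not_not.1 h]

variable (hc : CoeffIn (crv a b) {z | v z ≤ 1})
include hc

theorem cy_le (h : ¬ KerV v Q) : v (cy Q) ≤ 1 := by
  rcases Q with _ | ⟨x, y, k⟩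
  · exact (h trivial).elim
  · exact y_int hc k.1 (not_not.1 h)

theorem slp {x y r s : K} (h : (crv a b).Nonsingular x y) (k : (crv a b).Nonsingular r s)
    (hx : v x ≤ 1) (hr : v r ≤ 1) (n : ¬ KerV v (Point.some x y h + .some r s k)) :
    ∃ l, v l ≤ 1 ∧ y - s = l * (x - r) := by
  by_cases c : x = r ∧ y = (crv a b).negY r s
  · exact (n (Point.add_of_Y_eq c.1 c.2 ▸ trivial)).elim
  rw [Point.add_some c] at n
  exact ⟨_, quad_le_one (a := 0) (b := (crv a b).addX x r ((crv a b).slope x r y s) + x + r)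
    (by simp) (by rw [addX]; ring) (v.map_add_le (v.map_add_le (not_not.1 n) hx) hr),
    (slope_rel h.1 k.1 c).1⟩

theorem far (hR : ¬ KerV v R) (hT : ¬ KerV v T) (h1 : ¬ KerV v (R + T)) (h2 : ¬ KerV v (R - T)) :
    v (2 * cy T) ≤ v (cx R - cx T) := by
  rcases R with _ | ⟨x, y, h⟩
  · exact (hR trivial).elim
  rcases T with _ | ⟨r, s, k⟩
  · exact (hT trivial).elim
  rw [sub_eq_add_neg, Point.neg_some] at h2
  obtain ⟨l, a1, b1⟩ := slp hc h k (not_not.1 hR) (not_not.1 hT) h1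
  obtain ⟨m, a2, b2⟩ := slp hc h _ (not_not.1 hR) (not_not.1 hT) h2
  rw [negY] at b2
  change v (2 * s) ≤ v (x - r)
  rw [show 2 * s = (m - l) * (x - r) by linear_combination b2 - b1, map_mul]
  exact mul_le_of_le_one_left' (v.map_sub_le a2 a1)

theorem dx (hQ : ¬ KerV v Q) (hY : KerV v Y) :
    v (cx (Q + Y) - cx Q - 2 * cy Q * zf Y) ≤ v (zf Y) ^ 2 := by
  have y1 := cy_le hc hQ
  rcases Y with _ | ⟨X, W, k⟩
  · change v (cx (Q + 0) - _ - _ * 0) ≤ _
    simp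
  rcases Q with _ | ⟨x, y, h⟩
  · exact (hQ trivial).elim
  replace hQ : v x ≤ 1 := not_not.1 hQ
  replace hY : 1 < v X := not_le.1 hY
  obtain ⟨X0, W0, e, t1⟩ := bas hc k.1 hY
  have n : x ≠ X := fun c => hY.not_ge (c ▸ hQ)
  have hl := (slope_rel h.1 k.1 fun c => n c.1).1
  have e1 := (equation_iff _ _).1 h.1
  have e2 := (equation_iff _ _).1 k.1
  rw [Point.add_of_X_ne n]
  change v ((crv a b).addX x X _ - x - 2 * y * (-X / W)) ≤ v (-X / W) ^ 2
  change v y ≤ 1 at y1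
  have q : -W - -X / W * X ^ 2 = -X / W * (a + b * X⁻¹) := by field_simp; linear_combination -e2
  have i : v X⁻¹ ≤ 1 := by rw [map_inv₀]; exact (inv_lt_one_of_one_lt₀ hY).le
  rw [addX]
  generalize (crv a b).slope x X y W = l, -X / W = t, X⁻¹ = s at *
  have f : (l ^ 2 + 0 * l - 0 - x - X - x - 2 * y * t) * (X - x) ^ 2 =
      (a + 3 * x ^ 2 + 4 * y * t * x) * X +
        (2 * b + a * x - x ^ 3 + 2 * y * t * (a + b * s - x ^ 2)) := by
    linear_combination -(l * (x - X) + (y - W)) * hl + e1 + e2 + 2 * y * q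
  have p := zero_lt_one.trans hY
  refine le_of_mul_le_mul_right (a := v X ^ 2) ?_ (pow_pos p 2)
  rw [sq (v X), ← mul_assoc (_ ^ 2), mul_comm (_ ^ 2), e, one_mul, ← sq,
    ← v.map_sub_eq_of_lt_left (hQ.trans_lt hY), ← map_pow, ← map_mul, f,
    v.map_sub_eq_of_lt_left (hQ.trans_lt hY)]
  obtain ⟨-, -, -, c4, c6⟩ := hc
  replace t1 := t1.le
  change _ ∈ v.integer at c4 c6 hQ y1 t1 i
  refine v.map_add_le ((map_mul v _ _).trans_le (mul_le_of_le_one_left' ?_)) (le_trans ?_ hY.le) <;>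
    change _ ∈ v.integer <;> apply_rules [add_mem, sub_mem, mul_mem, pow_mem, ofNat_mem]

theorem tor0 {n : ℕ} (hn : v n = 1) (h : KerV v R) (e : n • R = 0) : R = 0 :=
  zf_eq_zero hc h ((map_eq_zero v).1 (by
    rw [← one_mul (v _), ← hn, ← v_nsmul hc h (hn ▸ zf_lt hc h), e, zf_zero, map_zero]))

theorem tor {p : ℕ} (hp : p ≠ 1) (hv : ∀ n : ℕ, ¬ p ∣ n → v n = 1) (h : KerV v R)
    (f : IsOfFinAddOrder R) : ∃ i, p ^ i • R = 0 := by
  obtain ⟨n, n0, e⟩ := f.exists_nsmul_eq_zero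
  obtain ⟨i, u, c, rfl⟩ := Nat.exists_eq_pow_mul_and_not_dvd n0.ne' p hp
  exact ⟨i, tor0 hc (hv u c) ((E1 hc).nsmul_mem h _) (by rwa [smul_smul, mul_comm])⟩

end val

section nrm

variable {K : Type} [NormedField K] [IsUltrametricDist K]

theorem sm {E : WeierstrassCurve K} (hc : CoeffIn E {z | nv K z ≤ 1}) {p : ℕ} (p0 : (p : K) ≠ 0)
    (p1 : ‖(p : K)‖ < 1) {T : E.toAffine.Point} (k : KerV (nv K) T) :
    ∃ j, ‖zf (p ^ j • T)‖ < ‖(p : K)‖ := by
  have z1 : ‖zf T‖ < 1 := zf_lt hc k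
  have b : ∀ j : ℕ, ‖zf (p ^ j • T)‖ ≤ max ‖(p : K)‖ ‖zf T‖ ^ j * ‖zf T‖ := fun j => by
    induction j with
    | zero => simp
    | succ j ih =>
      have e : ‖zf (p • p ^ j • T) - p * zf (p ^ j • T)‖ ≤ ‖zf (p ^ j • T)‖ ^ 2 := by
        exact_mod_cast nsmul_le hc ((E1 hc).nsmul_mem k (p ^ j)) p
      have i := ih.trans (mul_le_of_le_one_left (norm_nonneg _)
        (pow_le_one₀ (by positivity) (max_lt p1 z1).le))
      rw [pow_succ', mul_smul, pow_succ', mul_assoc, ← sub_add_cancel (zf (p • p ^ j • T))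
        (p * zf (p ^ j • T))]
      refine (IsUltrametricDist.norm_add_le_max _ _).trans (max_le (e.trans ?_) ?_)
      · rw [sq]
        exact mul_le_mul (i.trans (le_max_right _ _)) ih (norm_nonneg _) (by positivity)
      · rw [norm_mul]
        exact mul_le_mul (le_max_left _ _) ih (norm_nonneg _) (by positivity)
  exact (exists_pow_lt_of_lt_one (norm_pos_iff.2 p0) (max_lt p1 z1)).imp fun j hj =>
    (b j).trans_lt ((mul_le_of_le_one_right (by positivity) z1.le).trans_lt hj)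

theorem ad {x y : K} {r : ℝ} (h : ‖x‖ ≤ r) (k : ‖y‖ ≤ r) : ‖x + y‖ ≤ r :=
  (IsUltrametricDist.norm_add_le_max _ _).trans (max_le h k)

theorem prd {ι : Type} (Z : Multiset ι) {f g : ι → K} {η ε : ℝ} (h0 : 0 ≤ η) (h1 : η ≤ 1)
    (h2 : η * η ≤ ε) (h : ∀ r ∈ Z, ‖f r - 1‖ ≤ η ∧ ‖f r - 1 - g r‖ ≤ ε) :
    ‖(Z.map f).prod - 1‖ ≤ η ∧ ‖(Z.map f).prod - 1 - (Z.map g).sum‖ ≤ ε := by
  induction Z using Multiset.induction_on with
  | empty => simpa [h0] using (mul_self_nonneg η).trans h2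
  | cons r Z ih =>
    obtain ⟨a, b⟩ := ih fun s m => h s (Multiset.mem_cons_of_mem m)
    obtain ⟨c, d⟩ := h r (Multiset.mem_cons_self _ _)
    simp only [Multiset.map_cons, Multiset.prod_cons, Multiset.sum_cons]
    generalize (Z.map f).prod = P, (Z.map g).sum = S at *
    have e : ‖(f r - 1) * (P - 1)‖ ≤ η * η := (norm_mul _ _).trans_le (by gcongr)
    exact ⟨by convert ad (ad a c) (e.trans (mul_le_of_le_one_left h0 h1)) using 2; ring,
      by convert ad (ad b d) (e.trans h2) using 2; ring⟩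

theorem one {x x' y t l r : K} {τ δ c : ℝ} (hδ : 0 < δ) (hc : 1 ≤ c) (t1 : τ ≤ 1) (ht : ‖t‖ ≤ τ)
    (hl : ‖l - t‖ ≤ c * τ ^ 2) (hl' : ‖l‖ ≤ τ) (hy : ‖y‖ ≤ 1) (hx : ‖x - r‖ ≤ 1)
    (hd : ‖x' - x - y * t‖ ≤ τ ^ 2) (h : δ ≤ ‖x - r‖) (h' : δ ≤ ‖x' - r‖) :
    ‖(x - r) / (x' - r) - 1‖ ≤ τ / δ ∧
      ‖(x - r) / (x' - r) - 1 - l * -(y / (x - r))‖ ≤ c * (τ / δ) ^ 2 := by
  have n := norm_pos_iff.1 (hδ.trans_le h)
  have n' := norm_pos_iff.1 (hδ.trans_le h')
  have t0 := (norm_nonneg _).trans ht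
  have m : ∀ {a b : K} {s : ℝ}, ‖a‖ ≤ 1 → ‖b‖ ≤ s → ‖a * b‖ ≤ s := fun a b =>
    (norm_mul _ _).trans_le ((mul_le_of_le_one_left (norm_nonneg _) a).trans b)
  have d : ‖x' - x‖ ≤ τ := by
    simpa using ad (hd.trans (pow_le_of_le_one t0 t1 two_ne_zero)) (m hy ht)
  have s : τ ^ 2 ≤ c * τ ^ 2 := le_mul_of_one_le_left (by positivity) hc
  constructor
  · rw [show (x - r) / (x' - r) - 1 = -(x' - x) / (x' - r) by field_simp; ring, norm_div, norm_neg]
    gcongr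
  · rw [show (x - r) / (x' - r) - 1 - l * -(y / (x - r)) = ((x - r) * (y * (l - t) +
      -(x' - x - y * t)) + y * (l * (x' - x))) / ((x - r) * (x' - r)) by field_simp; ring, norm_div,
      norm_mul (x - r) (x' - r), div_pow, ← mul_div_assoc, sq δ]
    gcongr
    exact ad (m hx (ad (m hy hl) ((norm_neg _).trans_le (hd.trans s))))
      (m hy (((norm_mul _ _).trans_le (by rw [sq]; gcongr)).trans s))

end nrm

open Vale.Agent.P014U
open Vale.Agent.P022 (Qb GQ)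
open Vale.Agent.P022D.W (dec)
open P004M.TE (Pt pa Cv pa_some ga_some nsg_pa pa_inj crv_map)
open P014T.Wm (Fx)
open Ah (Ind am)

variable [Pp] {A B : ℤ} {ι : Qb →+* ℂ_[pp]} {P : Ideal (𝓞 Qb)}

theorem xc_pa (Q : Pt A B) : ι (xc Q) = cx (pa ι.toRatAlgHom Q) ∧ ι (yc Q) = cy (pa ι.toRatAlgHom Q) := by
  rcases Q with _ | ⟨x, y, h⟩
  · exact ⟨map_zero ι, map_zero ι⟩
  · rw [pa_some]; exact ⟨rfl, rfl⟩

theorem nrm_nat (n : ℕ) (h : ¬ pp ∣ n) : nv ℂ_[pp] n = 1 := NNReal.eq (by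
  change ‖(n : ℂ_[pp])‖ = 1
  rw [← map_natCast am, Ah.nrm_am]
  exact Padic.norm_natCast_eq_one_iff.2 (pp_prime.coprime_iff_not_dvd.2 h))

theorem ker (h : P014T.Top.El A B) (hι : Ind ι P) (y : Fx A B (dec P)) :
    ∃ n : ℕ, n ≠ 0 ∧ KerV (nv _) (n • pa ι.toRatAlgHom y.1) := by
  obtain ⟨_ | ⟨c, d, n⟩, hy⟩ := y
  · exact ⟨1, one_ne_zero, by rw [one_smul]; trivial⟩
  have fx := fun g m => Point.some.inj ((ga_some g n).symm.trans (hy g m))
  obtain ⟨c', e1⟩ := hι.fx.1 fun g m => (fx g m).1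
  obtain ⟨d', e2⟩ := hι.fx.1 fun g m => (fx g m).2
  have m : (Cv ℚ_[pp] (A : ℚ) (B : ℚ)).Nonsingular c' d' :=
    (map_nonsingular _ am.injective c' d').1 (by
      exact (congrArg (fun W : WeierstrassCurve ℂ_[pp] => W.toAffine.Nonsingular (am c') (am d'))
        (crv_map am (am.toRatAlgHom.commutes (A : ℚ)) (am.toRatAlgHom.commutes (B : ℚ)))).mpr
        (by rw [e1, e2]; exact nsg_pa ι.toRatAlgHom n))
  refine ⟨_, fin1 (cfs ℚ_[pp] A B) (by
    rw [P014T.Pu.disc, map_intCast, map_intCast]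
    exact mul_ne_zero (by norm_num) (by exact_mod_cast h)), ?_⟩
  have k := AddSubgroup.nsmul_index_mem (E1 (cfs ℚ_[pp] A B)) (.some c' d' m)
  rw [show pa ι.toRatAlgHom (.some c d n) = pa am.toRatAlgHom (.some c' d' m) by
    rw [pa_some, pa_some]; exact (Point.some.injEq ..).mpr ⟨e1.symm, e2.symm⟩, ← map_nsmul]
  generalize (E1 (cfs ℚ_[pp] A B)).index • Point.some c' d' m = T at k ⊢
  rcases T with _ | ⟨u, v, o⟩
  · trivial
  · rw [pa_some]
    exact fun e => k ((Ah.nrm_am u).symm.trans_le e)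

end Ty

open Ty Vale.Agent.P014U Vale.Agent.P014T.Lc
open P004M.TE (Pt pa pa_inj)

/-- **row TAY** -/
theorem tay [Pp] : TAY := fun A B hE ι P hι lg hl c Θ Z k th pc oc y => by
  have hc := cfs ℂ_[pp] A B
  have p1 : (1 : ℝ) < pp := by exact_mod_cast one_lt
  have p0 : (0 : ℝ) < pp := by positivity
  obtain ⟨L, hL⟩ := Lc.ex_lgs A B
  obtain ⟨m, hm⟩ : ∃ m, m = pa (a := (A : ℚ)) (b := (B : ℚ)) ι.toRatAlgHom := ⟨_, rfl⟩
  have mi : Function.Injective m := hm ▸ pa_inj _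
  have xy := fun Q => hm ▸ xc_pa (A := A) (B := B) (ι := ι) Q
  obtain ⟨n, n0, k0⟩ := ker hE hι y
  obtain ⟨j, hj⟩ := sm hc (Nat.cast_ne_zero.2 pp_ne) Ah.two_lt k0
  obtain ⟨i₀, u, hu, rfl⟩ := Nat.exists_eq_pow_mul_and_not_dvd n0 pp one_lt.ne'
  replace k0 := (E1 hc).nsmul_mem k0 (pp ^ j)
  rw [← hm, mul_smul, smul_smul, ← pow_add, ← map_nsmul m u] at k0 hj
  have c0 : c ≠ 0 := oc.pos.ne'
  choose T T0 Tc Tx using th.rt
  have Tk (r) (h : r ∈ Z) : ¬ KerV (nv _) (m (T r h)) := fun k => T0 r h (mi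
    ((tor0 hc (nrm_nat c pc) k (by rw [← map_nsmul, Tc, map_zero])).trans (map_zero m).symm))
  obtain ⟨a₁, ha⟩ : ∃ a : ℕ, ∀ r (h : r ∈ Z), ((pp : ℝ) ^ a)⁻¹ ≤ ‖2 * cy (m (T r h))‖ := by
    have : ∀ r ∈ Z.toFinset, ∀ᶠ a : ℕ in atTop, ∀ h : r ∈ Z,
        ((pp : ℝ) ^ a)⁻¹ ≤ ‖2 * cy (m (T r h))‖ := fun r h => by
      replace h := Multiset.mem_toFinset.1 h
      refine ((tendsto_pow_atTop_atTop_of_one_lt p1).inv_tendsto_atTop.eventually
        (eventually_le_nhds (b := ‖2 * cy (m (T r h))‖) (norm_pos_iff.2 fun z => T0 r h ?_))).mono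
        fun a b _ => b
      rw [← (xy _).2, mul_eq_zero, map_eq_zero, or_iff_right two_ne_zero] at z
      obtain ⟨s, rfl⟩ := oc
      have e : 2 • T r h = 0 := by
        generalize T r h = S at z
        rcases S with _ | ⟨x, w, q⟩
        · exact nsmul_zero _
        · exact (two_nsmul _).trans (Point.add_of_Y_eq rfl (by rw [negY, show w = 0 from z]; simp))
      simpa [add_nsmul, mul_nsmul, e] using Tc r h
    exact ((Z.toFinset.eventually_all.2 this).exists).imp fun a b r h =>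
      b r (Multiset.mem_toFinset.2 h) h
  refine ⟨u, 2 * (j + i₀ + a₁) + 1, hu, fun i hi Q ⟨q1, q2⟩ => ?_⟩
  obtain ⟨i', rfl⟩ := Nat.exists_eq_add_of_le' (show j + i₀ ≤ i by omega)
  have Y1 := (E1 hc).nsmul_mem k0 (pp ^ i')
  have Y2 : ‖zf (pp ^ i' • pp ^ (j + i₀) • m (u • y.1))‖ ≤
      ‖(pp : ℂ_[pp])‖ ^ i' * ‖zf (pp ^ (j + i₀) • m (u • y.1))‖ := by
    exact_mod_cast v_pow hc k0 hj i'
  have Y3 := Y2.trans_lt ((mul_le_of_le_one_left (norm_nonneg _)
    (pow_le_one₀ (norm_nonneg _) Ah.two_lt.le)).trans_lt hj)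
  replace Y2 := Y2.trans (mul_le_of_le_one_right (by positivity) (hj.trans Ah.two_lt).le)
  have lY : (pp : ℂ_[pp]) ^ (i' + (j + i₀)) * Ah.am (lg (u • y)) =
      L (pp ^ i' • pp ^ (j + i₀) • m (u • y.1)) := by
    rw [hl L hL, smul_smul, ← pow_add, map_nsmul L, nsmul_eq_mul, Nat.cast_pow, hm]; rfl
  rw [smul_smul, ← pow_add, ← map_nsmul] at Y1 Y2 Y3 lY
  rw [lY]
  generalize pp ^ (i' + (j + i₀)) • u • y.1 = Y at *
  have g : ∀ (e : ℕ) (S : Pt A B), c • S = 0 → ∀ X, KerV (nv _) X → e ∣ c →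
      ¬ KerV (nv _) (e • (m Q + m S) + X) := fun e S hS X hX ⟨e', he⟩ h => by
    obtain ⟨a, b⟩ := tor hc one_lt.ne' nrm_nat (R := m (e • (Q + S)))
      (by rw [map_nsmul, map_add, ← add_sub_cancel_right (e • _) X]; exact (E1 hc).sub_mem h hX)
      (m.isOfFinAddOrder
        (q1.add (isOfFinAddOrder_iff_nsmul_eq_zero.2 ⟨c, oc.pos, hS⟩)).nsmul)
    replace b := congrArg (e' • ·) (mi ((map_nsmul m _ _).trans (b.trans (map_zero m).symm)))
    rw [nsmul_zero, smul_comm, smul_smul e', mul_comm, ← he, nsmul_add, hS, add_zero, smul_comm] at b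
    exact q2 a b
  have g1 : ∀ X, KerV (nv _) X → ¬ KerV (nv _) (m Q + X) ∧ ∀ r ∈ Z,
      ((pp : ℝ) ^ a₁)⁻¹ ≤ ‖cx (m Q + X) - ι r‖ := fun X hX => by
    have a : ¬ KerV (nv _) (m Q + X) := by simpa using g 1 0 (nsmul_zero _) X hX (one_dvd _)
    refine ⟨a, fun r h => (ha r h).trans ?_⟩
    conv_rhs => rw [← Tx r h, (xy _).1]
    exact_mod_cast far hc a (Tk r h)
      (by rw [add_right_comm]; simpa using g 1 _ (Tc r h) X hX (one_dvd _)) (by
        rw [sub_eq_add_neg, add_right_comm]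
        simpa using g 1 (-T r h) (by rw [neg_nsmul, Tc, neg_zero]) X hX (one_dvd _))
  have cQ : c • Q ≠ 0 := by simpa using q2 0
  have cY : c • (Q + Y) ≠ 0 := fun z => g c 0 (nsmul_zero _) _ ((E1 hc).nsmul_mem Y1 c) dvd_rfl (by
    rw [map_zero, add_zero, ← nsmul_add, ← map_add, ← map_nsmul, z, map_zero]; trivial)
  obtain ⟨a1, b1⟩ := g1 0 trivial
  obtain ⟨-, b2⟩ := g1 _ Y1
  rw [add_zero] at a1 b1
  have e : ι (Θ (Q + Y) / Θ Q) = (Z.map fun r => (cx (m Q) - ι r) / (cx (m Q + m Y) - ι r)).prod := by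
    have e1 := th.eq Q cQ
    have e2 := th.eq _ cY
    rw [(div_eq_div_iff (left_ne_zero_of_mul (e1 ▸ th.ne)) (right_ne_zero_of_mul (e2 ▸ th.ne))).2
      (e2.trans (e1.symm.trans (mul_comm _ _))), ← Multiset.prod_map_div, map_multiset_prod,
      Multiset.map_map]
    simp [xy]
  have e' : L (m Y) * ι (Dl Z Q) = (Z.map fun r => L (m Y) * -(2 * cy (m Q) / (cx (m Q) - ι r))).sum := by
    rw [Multiset.sum_map_mul_left, Multiset.sum_map_neg, Dl, map_neg, map_multiset_sum,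
      Multiset.map_map]
    simp [xy, map_ofNat]
  rw [Ah.two_C, one_div_pow] at Y2
  have t1 : 1 / (pp : ℝ) ^ i' ≤ 1 := (div_le_one (by positivity)).2 (one_le_pow₀ p1.le)
  obtain ⟨f1, f2⟩ := prd Z (η := 1 / (pp : ℝ) ^ i' / ((pp : ℝ) ^ a₁)⁻¹) (by positivity) (by
      rw [div_inv_eq_mul, one_div_mul_eq_div, div_le_one (by positivity)]
      exact pow_le_pow_right₀ p1.le (by omega))
    ((sq _).symm.trans_le (le_mul_of_one_le_left (by positivity) p1.le)) fun r h =>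
      one (by positivity) p1.le t1 Y2 (by
        have := hL _ Y1 Y3
        rw [Ah.two_C, one_div_mul_eq_div, div_le_iff₀ p0, mul_comm] at this
        exact this.trans (by gcongr)) ((hL.norm hc Y1 Y3).trans_le Y2)
        (val_mul_le_one (ofNat_mem (nv ℂ_[pp]).integer 2) (cy_le hc a1) :) (by
          rw [← Tx r h, (xy _).1]
          exact ((nv _).map_sub_le (cx_le a1) (cx_le (Tk r h)) :))
        (le_trans (by exact_mod_cast dx hc a1 Y1) (pow_le_pow_left₀ (norm_nonneg _) Y2 2))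
        (b1 r h) (b2 r h)
  rw [map_sub, map_one, e, e']
  refine ⟨cY, (mul_le_mul_of_nonneg_right f1 (by positivity)).trans ?_,
    (mul_le_mul_of_nonneg_right f2 (by positivity)).trans_eq ?_⟩
  · refine le_trans (le_of_eq ?_) (pow_le_pow_right₀ p1.le (by omega : j + i₀ + a₁ ≤ _))
    field_simp
    ring
  · field_simp
    ring

end Vale.Agent.P014X.Rx
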