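import Vale.Agent.P014X.Rx.Red
import Vale.Agent.P014X.Rx.Ev
import Vale.Agent.P014X.Rx.Log
import Vale.Agent.P014X.Rx.Glo
import Vale.Agent.P014X.Rx.Tay

/-!
# P014X, block RECX: the explicit reciprocity law for elliptic units (helper58)
-/

set_option autoImplicit false
set_option linter.all false

open NumberField Finset
open scoped Classical

noncomputable section

namespace Vale.Agent.P014X.Rx

open Vale.Agent.P014U Vale.Agent.P014U.Sy Vale.Agent.P014U.Sy.Fd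
open Vale.Agent.P022 (Qb GQ)
open Vale.Agent.P022D.W (dec)
open X4S.Ga (K O mem_O)
open X4S.Aq
open X4F.Rc (mq hn hn_mul mq_eq mq_zero O_odd)
open Vale.Agent.P004F (hq)
open P004M.TE (Pt ga ga_mul ga_one ga_some)
open P014T.Top (El)
open P014T.Wm (Fx)
open P014T.Rc (zw)
open Ah (Ind am iv_iv two_C nrm_am)

variable [Pp]

/-- valuation at least `n` -/
def Sm (x : ℂ_[pp]) (n : ℤ) : Prop := ‖x‖ ≤ (pp : ℝ) ^ (-n)

section

variable {x y t t' : ℂ_[pp]} {n m : ℤ}

theorem p1 : (1 : ℝ) < pp := by exact_mod_cast one_lt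

theorem p0 : (0 : ℝ) < pp := zero_lt_one.trans p1

theorem Sm.mono (h : Sm x n) (e : m ≤ n) : Sm x m := h.trans (zpow_le_zpow_right₀ p1.le (by omega))

theorem Sm.add (h : Sm x n) (k : Sm y n) : Sm (x + y) n := Ty.ad h k

theorem Sm.neg (h : Sm x n) : Sm (-x) n := (norm_neg x).trans_le h

theorem Sm.mul (h : Sm x n) (k : Sm y m) : Sm (x * y) (n + m) := by
  rw [Sm, norm_mul, neg_add, zpow_add₀ p0.ne']
  exact mul_le_mul h k (norm_nonneg _) (zpow_pos p0 _).le

theorem Sm.of (h : Sm x n) (e : y = x) : Sm y n := e ▸ h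

theorem sm_zero (n : ℤ) : Sm 0 n := norm_zero.trans_le (zpow_pos p0 _).le

theorem sm_sum {I : Type} {J : Finset I} {f : I → ℂ_[pp]} (h : ∀ i ∈ J, Sm (f i) n) :
    Sm (∑ i ∈ J, f i) n := sum_induction f (Sm · n) (fun _ _ => Sm.add) (sm_zero n) h

theorem sm_iff {i a : ℕ} : ‖x‖ * (pp : ℝ) ^ i ≤ (pp : ℝ) ^ a ↔ Sm x (i - a) := by
  rw [Sm, neg_sub, zpow_sub₀ p0.ne', le_div_iff₀ (zpow_pos p0 _), zpow_natCast, zpow_natCast]

theorem sm_one {i : ℕ} : ‖x‖ * (pp : ℝ) ^ i ≤ 1 ↔ Sm x i := by simpa using sm_iff (x := x) (a := 0)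

theorem ex_sm (x : ℂ_[pp]) : ∃ a : ℕ, Sm x (-a) :=
  (pow_unbounded_of_one_lt ‖x‖ p1).imp fun a h => by rw [Sm, neg_neg, zpow_natCast]; exact h.le

theorem Sm.lt (h : Sm x n) {i : ℕ} (e : i < n) : ‖x‖ < ‖(pp : ℂ_[pp])‖ ^ i := by
  rw [two_C, one_div, inv_pow, ← zpow_natCast, ← zpow_neg]
  exact h.trans_lt (zpow_lt_zpow_right₀ p1 (by omega))

theorem Sm.nrm (h : Sm (x - 1) n) (e : 0 < n) : ‖x‖ = 1 := by
  have := IsUltrametricDist.norm_add_eq_max_of_norm_ne_norm (x := x - 1) (y := 1)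
    (by simpa using (h.lt (i := 0) e).ne)
  rw [sub_add_cancel, norm_one] at this
  exact this.trans (max_eq_right (by simpa using (h.lt (i := 0) e).le))

theorem sm_inv (h : ‖x‖ = 1) : Sm x⁻¹ 0 := by simp [Sm, h]

theorem sm_hn (i : ℕ) : Sm ((pp : ℂ_[pp]) ^ i)⁻¹ (-i) := by simp [Sm, two_C]

/-- first order expansions -/
def Nr (n m : ℤ) (x t : ℂ_[pp]) : Prop := Sm (x - 1) n ∧ Sm (x - 1 - t) m

variable (n0 : 0 < n) (nm : n ≤ m) (mn : m ≤ n + n)
include n0 nm mn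

theorem Nr.mul (h : Nr n m x t) (k : Nr n m y t') : Nr n m (x * y) (t + t') :=
  ⟨((h.1.add k.1).add ((h.1.mul k.1).mono (by omega))).of (by ring),
    ((h.2.add k.2).add ((h.1.mul k.1).mono mn)).of (by ring)⟩

theorem Nr.inv (h : Nr n m x t) : Nr n m x⁻¹ (-t) := by
  have x1 := h.1.nrm n0
  have x0 : x ≠ 0 := fun e => by simp [e] at x1
  have k : Sm t n := (h.1.add (h.2.mono nm).neg).of (by ring)
  exact ⟨(((sm_inv x1).mul h.1.neg).mono (by omega)).of (by field_simp; ring),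
    (((sm_inv x1).mul (h.2.neg.add ((k.mul h.1).mono mn))).mono (by omega)).of (by field_simp; ring)⟩

theorem Nr.prod {I : Type} {J : Finset I} {f g : I → ℂ_[pp]} (h : ∀ i ∈ J, Nr n m (f i) (g i)) :
    Nr n m (∏ i ∈ J, f i) (∑ i ∈ J, g i) := by
  induction J using Finset.induction_on with
  | empty => exact ⟨(sm_zero _).of (by simp), (sm_zero _).of (by simp)⟩
  | insert j J hj ih =>
    rw [prod_insert hj, sum_insert hj]
    exact (h j (mem_insert_self _ _)).mul n0 nm mn (ih fun i m => h i (mem_insert_of_mem m))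

theorem Nr.zpow (h : Nr n m x t) (a : ℤ) : Nr n m (x ^ a) (a * t) := by
  have k (a : ℕ) : Nr n m (x ^ a) (a * t) := by
    simpa using Nr.prod n0 nm mn (J := range a) (f := fun _ => x) (g := fun _ => t) fun _ _ => h
  obtain ⟨a, rfl | rfl⟩ := a.eq_nat_or_neg
  · simpa using k a
  · simpa using (k a).inv n0 nm mn

end

variable {A B : ℤ}

theorem xc_ga (g : GQ) (Q : Pt A B) : xc (ga g Q) = g (xc Q) ∧ yc (ga g Q) = g (yc Q) := by
  rcases Q with _ | ⟨x, y, h⟩
  · rw [show ga g (.zero : Pt A B) = .zero from map_zero _]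
    exact ⟨(map_zero _).symm, (map_zero _).symm⟩
  · rw [ga_some]; exact ⟨rfl, rfl⟩

theorem dl_ga {Z : Multiset Qb} {g : GQ} (e : Z.map g = Z) (Q : Pt A B) :
    g (Dl Z Q) = Dl Z (ga g Q) := by
  conv_rhs => rw [← e]
  simp only [Dl, map_neg, map_multiset_sum, Multiset.map_map, Function.comp_def, map_div₀, map_mul,
    map_sub, map_ofNat, (xc_ga g Q).1, (xc_ga g Q).2]

theorem b_act {S : Finset ℕ} {R : Type} [CommRing R] (C : Cm A B S R) {f : R →+ ℤ} {b : Bool → Qb}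
    (hb : ∀ e, (f e : Qb) = b false * C.em e false + b true * C.em e true) (g : GQ) (x : Bool) :
    g (b x) = b (C.al g x) := by
  have k := fun e => congrArg g (hb e)
  simp only [map_intCast, map_add, map_mul, C.em_act] at k
  simp only [hb] at k
  have k1 := k 1
  have k2 := k C.ω
  have n : C.em C.ω true - C.em C.ω false ≠ 0 := sub_ne_zero.2 fun z => C.ne (C.inj (Subtype.ext z))
  simp only [Cm.em, map_one, OneMemClass.coe_one, mul_one] at k1
  simp only [Cm.al] at k2 ⊢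
  refine mul_left_cancel₀ n ?_
  revert k2
  cases C.ep g <;> cases x <;> simp only [Bool.xor_false, Bool.xor_true, Bool.not_true,
    Bool.not_false] <;> intro k2
  · linear_combination k2 - C.em C.ω true * k1
  · linear_combination C.em C.ω false * k1 - k2
  · linear_combination C.em C.ω false * k1 - k2
  · linear_combination k2 - C.em C.ω true * k1

/-- **the explicit reciprocity law** -/
theorem recx : RECX := by
  intro A B h S R _ C pS hS c Θ Z k₀ θ pc oc N H ρ T t β f z u b hb ι P hι lg hl J _ s p W r hW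
  have o := hι.ov
  have F := u.fa r hW
  have zn := u.zn θ r hW
  have eY := u.ev (D := dec P) θ r
  have fx : P014T.Ah.Fx P (∑ i, W i * b (C.ep (s i)) * Dl Z (ga (s i) (ρ + T))) := fun g hg => by
    rw [map_sum, ← r.sum (x := g) trivial
      fun i => W i * b (C.ep (s i)) * Dl Z (ga (s i) (ρ + T))]
    exact sum_congr rfl fun i m => by
      rw [map_mul, map_mul, map_intCast, b_act C hb, dl_ga (θ.gz g), eY g hg i m, ← F.ep g hg i m,
        hW g hg]
  have hμ : am (Ah.vl ι (∑ i, W i * b (C.ep (s i)) * Dl Z (ga (s i) (ρ + T))) * hn N) * pp ^ N =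
      ι (∑ i, W i * b (C.ep (s i)) * Dl Z (ga (s i) (ρ + T))) := by
    rw [← hι.vl fx, ← map_natCast am, ← map_pow, ← map_mul, mul_assoc, mul_comm (hn N), hn_mul,
      mul_one]
  refine ⟨zn, _, hμ, fun y y' q => ?_⟩
  generalize Ah.vl ι _ * hn N = μ at hμ
  rw [pow_zero, one_smul] at q
  rw [pow_zero, one_smul]
  obtain ⟨v, a, pv, ta⟩ := tay A B h ι P hι lg hl c Θ Z k₀ θ pc oc y
  have I : Cp.Iv (dec P) (Iv.iv P) := ⟨fun _ => Iv.iv_b2 o, fun _ k => (Iv.iv_iff o k).1⟩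
  suffices e : Iv.iv P (Cp.cp (Ki.wp (hq h)) N (Bt.dd A B (v • y')) (zw s p W z)) =
      mq (lg (v • y) * μ / (pp : K) ^ N) by
    have e1 := Cp.pr_eq (Ki.pr (hq h)) I y ⟨_, zn.mem⟩ q zn
    have e2 := Cp.pr_eq (Ki.pr (hq h)) I (v • y) ⟨_, zn.mem⟩ (x' := v • y')
      (by rw [smul_comm, q]; rfl) zn
    obtain ⟨w, hw⟩ := QuotientAddGroup.mk_surjective
      (Iv.iv P (Cp.cp (Ki.wp (hq h)) N (Bt.dd A B y') (zw s p W z)))
    rw [← e2, map_nsmul, AddMonoidHom.nsmul_apply, e1, ← hw, map_nsmul, nsmul_eq_mul] at e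
    rw [← hw]
    exact mq_eq.2 (O_odd pv (O_of (mq_eq.1 ((Iv.mq_nat v w).trans e)) (by ring)))
  have qv : pp ^ N • v • y' = v • y.1 := by rw [smul_comm, q]
  have hy : v • y.1 ∈ Fx A B (dec P) := nsmul_mem y.2 v
  obtain ⟨a₁, ap⟩ := apx A B S R C ι P hι
  obtain ⟨a₂, h₂⟩ := ex_sm (ι (b false))
  obtain ⟨a₃, h₃⟩ := ex_sm (ι (b true))
  obtain ⟨k, hk⟩ : ∃ k, k = N + a + a₁ + a₂ + a₃ + 2 := ⟨_, rfl⟩
  obtain ⟨V, hV⟩ := (Ki.pr (hq h)).dvp (k + (N + k)) T
  have gV : C.Gen (N + k + (N + k)) V := add_assoc N k _ ▸ Cm.Gen.up u.pos _ (hV ▸ u.gen)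
  obtain ⟨L, E, κ, lo⟩ := log0 R C.ω C.bas C.w (N + k + (N + k)) C.w0
  obtain ⟨c1, gl⟩ := glo A B S R C pS hS _ L E κ V f (by omega) gV lo
  have cD : C1 (dec P) C.al univ L 1 (La C V κ E f) := ⟨fun x m => (c1.cont x m).mono le_top,
    fun g _ => c1.lev g trivial, fun g _ j _ => c1.coc g trivial j trivial⟩
  obtain ⟨u₀, pu, uρ⟩ := u.rho
  have gq (i : J) (j : ℕ) (Q : Pt A B) (e : pp ^ j • Q = ga (s i) ρ + ga (s i) T) : Gq c Q := by
    rw [← map_add] at e
    refine ⟨isOfFinAddOrder_iff_nsmul_eq_zero.2 ⟨u₀ * pp ^ N * pp ^ j, Nat.pos_of_ne_zero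
      (mul_ne_zero (mul_ne_zero (fun e => pu (e ▸ dvd_zero _)) (pow_ne_zero _ pp_ne))
        (pow_ne_zero _ pp_ne)), ?_⟩, fun d w => u.nzs (s i) d ?_⟩
    · rw [mul_smul, e, ← map_nsmul, nsmul_add, mul_smul, mul_smul, u.gen.tor, smul_comm, uρ]
      simp
    · rw [← e, smul_comm (pp ^ d), smul_comm c, w, nsmul_zero]
  let av : AbsoluteValue Qb ℝ := (NormedField.toAbsoluteValue ℂ_[pp]).comp ι.injective
  have an : IsNonarchimedean av := fun x y =>
    (congrArg norm (map_add ι x y)).trans_le (IsUltrametricDist.norm_add_le_max _ _)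
  have ap' (i : ℕ) : av pp ^ i = ‖(pp : ℂ_[pp])‖ ^ i :=
    congrArg (· ^ i) (congrArg norm (map_natCast ι pp))
  have t2 := fun i => ta (k + k) (by omega) _ (gq i 0 _ (by rw [pow_zero, one_smul]))
  obtain ⟨mv, e⟩ := red f h θ (iv_iv o) F u.pos (ρ := fun i => ga (s i) ρ)
    (fun g _ i _ => tr_ga r (fun g m => (u.fx g m).1) g i) pu
    (fun i _ => by rw [← map_nsmul, uρ, map_zero])
    (fun i _ => by simpa using u.nzs (s i) 0) hy qv k an (fun g hg x => hι.nrm hg x)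
    (fun i _ Q e => ⟨(ta k (by omega) Q (gq i k Q e)).1, ap' _ ▸
      (sm_iff.1 (ta k (by omega) Q (gq i k Q e)).2.1).lt (by push_cast; omega)⟩)
    (fun i _ => (t2 i).1) gV lo cD
  rw [u.iv θ r o hW (qv ▸ hy)]
  simp only [map_add (ga _) ρ T] at hμ ⊢
  rw [e]
  have nr (x : Bool) := Nr.prod (n := k + k - a) (m := 2 * (k + k - a)) (by omega) (by omega)
    (by omega) (J := {i ∈ univ | C.ep (s i) = x}) fun i _ => Nr.zpow (by omega) (by omega) (by omega)
      ⟨by simpa using sm_iff.1 (t2 i).2.1, by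
        simpa using (sm_iff.1 (t2 i).2.2).mono (m := 2 * (k + k - a)) (by push_cast; omega)⟩ (W i)
  generalize hw : (fun x => ∏ i with C.ep (s i) = x, (Θ (ga (s i) ρ + ga (s i) T +
    pp ^ (k + k) • v • y.1) / Θ (ga (s i) ρ + ga (s i) T)) ^ W i) = w at mv
  have nw (x : Bool) : Nr (k + k - a) (2 * (k + k - a)) (ι (w x)) (∑ i with C.ep (s i) = x,
      W i * (pp ^ (k + k) * am (lg (v • y)) * ι (Dl Z (ga (s i) ρ + ga (s i) T)))) := by
    simpa [← hw] using nr x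
  obtain ⟨e, ⟨d, he⟩, ae⟩ := ap (fun x => w x - 1) (N + k) (L + a₂ + a₃ + 2) (∏ q ∈ S.erase pp, q)
    (fun g hg x => by rw [map_sub, map_one]; exact congrArg (· - 1) ((mv x (mem_univ _)).2.2 g hg))
    (fun m => by
      obtain ⟨q, m, k⟩ := (pp_prime.prime.dvd_finsetProd_iff _).1 m
      exact (mem_erase.1 m).1 ((Nat.prime_dvd_prime_iff_eq pp_prime (hS q (mem_erase.1 m).2)).1 k).symm)
    fun x => sm_one.2 (((nw x).1.mono (by push_cast; omega)).of (by simp))
  have ae' := fun x => sm_one.1 (ae x)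
  have cp : IsCoprime (1 + pp ^ (N + k) * e) (pp : R) :=
    ⟨1, -(pp ^ (N + k - 1) * e), by rw [← pow_sub_one_mul (by omega : N + k ≠ 0) (pp : R)]; ring⟩
  have em1 (x : Bool) : C.em (1 + pp ^ (N + k) * e) x = 1 + pp ^ (N + k) * C.em e x := by
    simp [Cm.em]
  have w1 (x : Bool) := (nw x).1.nrm (by omega)
  have sq (x : Bool) : Sm (ι (C.em (1 + pp ^ (N + k) * e) x * (w x)⁻¹) - 1) (L + 2) := by
    have : ι (w x) ≠ 0 := fun z => by simpa [z] using w1 x
    refine (((ae' x).mul (sm_inv (w1 x))).mono (by push_cast; omega)).of ?_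
    simp only [em1, map_sub, map_mul, map_add, map_one, map_inv₀]
    field_simp
    ring
  have mπ := C.em_G (dec P) (iv_iv o) (e := 1 + pp ^ (N + k) * e) fun z => by
    simpa [z, Cm.em] using (sq false).nrm (by omega)
  have mq' := mul_mem mπ (G_inv mv)
  have g1 := gl P o _ cp fun q m n => by
    rw [add_sub_cancel_left, he]
    exact ((Nat.cast_dvd_cast (dvd_prod_of_mem _ (mem_erase.2 ⟨n, m⟩))).mul_right _).mul_left _
  rw [pr_congr (F := fdQ _ (iv_iv o)) (C.ds _) cD (mul_mem mq' mv) (fun x m =>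
      (inv_mul_cancel_right₀ (mv x m).1 _).symm), pr_mul (F := fdQ _ (iv_iv o)) (C.ds _) cD mq' mv,
    pr_near (F := fdQ _ (iv_iv o)) (C.ds _) cD mq' an (fun g hg x _ => hι.nrm hg x)
      (fun x _ => ap' _ ▸ ((sq x).of (map_sub ι _ _ ▸ congrArg _ (map_one ι))).lt (by
        push_cast; omega)), zero_add] at g1
  rw [g1, neg_neg, mq_eq]
  refine O_of (add_mem (lo.near f e (N + k) (by omega) (by omega)) ?_) (sub_add_sub_cancel _ _ _).symm
  have le := lo.le
  have fin (x : Bool) := ((ae' x).mono (m := N + k + (N + k) + a₂ + a₃) (by push_cast; omega)).add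
    ((nw x).2.mono (by omega))
  have fs := ((sm_hn (N + k + (N + k))).mul (((h₂.mul (fin false)).mono (m := N + k + (N + k))
    (by omega)).add ((h₃.mul (fin true)).mono (by omega)))).mono (m := 0) (by push_cast; omega)
  rw [mem_O, ← nrm_am]
  refine le_of_eq_of_le (congrArg norm ?_) (fs.trans (by simp))
  have e1 : am (f e : K) = ι (b false) * ι (C.em e false) + ι (b true) * ι (C.em e true) := by
    rw [map_intCast, ← map_intCast ι, hb, map_add, map_mul, map_mul]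
  have e2 : ∑ x : Bool, ι (b x) * ∑ i with C.ep (s i) = x, (W i : ℂ_[pp]) *
      (pp ^ (k + k) * am (lg (v • y)) * ι (Dl Z (ga (s i) ρ + ga (s i) T))) =
      pp ^ (k + k) * am (lg (v • y)) * (am μ * pp ^ N) := by
    rw [hμ, map_sum, mul_sum, ← sum_fiberwise univ fun i => C.ep (s i)]
    refine sum_congr rfl fun x _ => (mul_sum _ _ _).trans (sum_congr rfl fun i m => ?_)
    rw [map_mul, map_mul, map_intCast, (mem_filter.1 m).2]; ring
  have pn : (pp : ℂ_[pp]) ≠ 0 := Nat.cast_ne_zero.2 pp_ne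
  rw [Fintype.sum_bool] at e2
  change am _ = _
  simp only [map_sub, map_mul, map_div₀, map_pow, map_natCast, e1, hn, map_inv₀, map_one]
  have e3 : ((pp : ℂ_[pp]) ^ (N + k + (N + k)))⁻¹ * pp ^ (k + k) * pp ^ N = ((pp : ℂ_[pp]) ^ N)⁻¹ := by
    field_simp
    ring
  linear_combination ((pp : ℂ_[pp]) ^ (N + k + (N + k)))⁻¹ * e2 + am (lg (v • y)) * am μ * e3

end Vale.Agent.P014X.Rx
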