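import Vale.Agent.P014X.Rx.St

/-!
# P014X, block RECX: calculus of the words (helper58)
-/

set_option autoImplicit false
set_option linter.all false

open NumberField Finset
open scoped Classical

noncomputable section

namespace Vale.Agent.P014X.Rx

open Vale.Agent.P014U Vale.Agent.P014U.Sy
open Vale.Agent.P022 (Qb GQ)
open X4S.Ga (K O)
open X4S.Aq
open X4F.Rc (mq hn hn_mul mq_eq mq_zero)
open P004M.TE (Pt ga ga_mul ga_one)
open Cp (lc_ga)

variable [Pp] {A B : ℤ} {S : Finset ℕ} {R : Type} [CommRing R]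

namespace Cm

variable (C : Cm A B S R) {g h : GQ} {x : Bool} {e e' : R} {n : ℕ} {T U U' : Pt A B}

theorem ep_f : C.ep g = false ↔ g ∈ C.G := by simp [ep]

theorem ep_t : C.ep g = true ↔ g ∉ C.G := by simp [ep]

theorem s_f (e : R) : C.s false e = e := rfl

theorem s_t (e : R) : C.s true e = C.σ e := rfl

theorem s_s (x y : Bool) (e : R) : C.s x (C.s y e) = C.s (xor x y) e := by
  cases x <;> cases y <;> simp [s_f, s_t, C.inv]

theorem smul_j (g : GQ) (e : R) : g • C.j e = C.j (C.s (C.ep g) e) := by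
  by_cases m : g ∈ C.G
  · rw [C.ep_f.2 m, C.fix g m, s_f]
  · rw [C.ep_t.2 m, C.cj g m, s_t]

theorem ga_act (g : GQ) (e : R) (T : Pt A B) :
    ga g (C.act e T) = C.act (C.s (C.ep g) e) (ga g T) := by
  by_cases m : g ∈ C.G
  · rw [C.ep_f.2 m, C.lin g m, s_f]
  · rw [C.ep_t.2 m, C.sem g m, s_t]

theorem s_inj {x y : Bool} (k : C.s x C.ω = C.s y C.ω) : x = y := by
  cases x <;> cases y
  exacts [rfl, (C.ne k.symm).elim, (C.ne k).elim, rfl]

theorem ep_mul (g h : GQ) : C.ep (g * h) = xor (C.ep g) (C.ep h) := C.s_inj (C.inj (by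
  rw [← smul_j, mul_smul, smul_j, smul_j, s_s]))

theorem ep_one : C.ep 1 = false := C.ep_f.2 (one_mem _)

theorem em_act (g : GQ) (e : R) (x : Bool) : g (C.em e x) = C.em e (C.al g x) := by
  have := congrArg (fun z : 𝓞 Qb => (z : Qb)) (C.smul_j g (C.s x e))
  rw [s_s] at this
  exact this

theorem em_mul (e e' : R) : C.em (e * e') = C.em e * C.em e' := funext fun x => by
  simp [em]

theorem em_inj (k : C.em e x = C.em e' x) : e = e' := by
  have := congrArg (C.s x) (C.inj (Subtype.ext k))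
  simpa [s_s, s_f] using this

theorem em_ne (k : e ≠ 0) (x : Bool) : C.em e x ≠ 0 := fun z =>
  k (C.em_inj (x := x) (z.trans (by simp [em])))

theorem ep_lc : IsLocallyConstant C.ep := by
  have k := (X4F.Rc.lc_act (C.em C.ω false)).comp fun z => decide (z ≠ C.em C.ω false)
  refine (funext fun g => ?_ : C.ep = _) ▸ k
  simp only [Function.comp, em_act, al, Bool.xor_false]
  cases C.ep g
  · simp
  · have : C.em C.ω true ≠ C.em C.ω false := fun z => C.ne (C.inj (Subtype.ext z))
    exact (decide_eq_true this).symm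

theorem al_mul (g h : GQ) (x : Bool) : C.al (g * h) x = C.al g (C.al h x) := by
  simp [al, ep_mul]

theorem ds (D : Subgroup GQ) : Ds D C.al univ :=
  ⟨fun _ _ _ _ => mem_univ _, fun x _ => by simp [al, ep_one], fun g _ h _ x _ => C.al_mul g h x,
    fun x _ => Lc.of_lc (C.ep_lc.comp fun z => xor z x)⟩

theorem em_G (D : Subgroup GQ) {ι : (GQ → GQ → K) → K ⧸ O} (i : Iv D ι) (k : e ≠ 0) :
    C.em e ∈ (fdQ D i).G C.al univ := fun x _ => ⟨C.em_ne k x, trivial, fun g _ => C.em_act g e x⟩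

theorem s_al (g : GQ) (x : Bool) (e : R) : C.s (C.al g x) (C.s (C.ep g) e) = C.s x e := by
  rw [s_s, al]; cases C.ep g <;> cases x <;> rfl

theorem act_mul (e e' : R) (T : Pt A B) : C.act (e * e') T = C.act e (C.act e' T) := by
  rw [map_mul]; rfl

theorem act_add (e e' : R) (T : Pt A B) : C.act (e + e') T = C.act e T + C.act e' T := by
  rw [map_add]; rfl

theorem act_sub (e e' : R) (T : Pt A B) : C.act (e - e') T = C.act e T - C.act e' T := by
  rw [map_sub]; rfl

theorem act_nat (m : ℕ) (T : Pt A B) : C.act m T = m • T := by rw [map_natCast]; rfl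

theorem act_one (T : Pt A B) : C.act 1 T = T := by rw [map_one]; rfl

theorem act_pw (m : ℕ) (T : Pt A B) : C.act (pp ^ m) T = pp ^ m • T := by
  rw [← Nat.cast_pow, act_nat]

include C in
theorem canc (m : ℕ) (k : (pp : R) ^ m * e = pp ^ m * e') : e = e' := C.inj (by
  have := congrArg C.j k
  simp only [map_mul, map_pow, map_natCast] at this
  exact mul_left_cancel₀ (pow_ne_zero _ (Nat.cast_ne_zero.2 pp_ne)) this)

variable {C}

theorem Gen.co (k : C.Gen n T) (u : pp ^ n • U = 0) : C.act (C.co T U) T = U :=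
  Function.invFun_eq (f := fun e => C.act e T) (k.sp U u)

theorem Gen.act_tor (k : C.Gen n T) (e : R) : pp ^ n • C.act e T = 0 := by
  rw [← map_nsmul, k.tor, map_zero]

theorem Gen.dv (k : C.Gen n T) (u : C.act e T = C.act e' T) : (pp : R) ^ n ∣ e - e' :=
  k.fr _ (by rw [act_sub, u, sub_self])

theorem Gen.of_dv (k : C.Gen n T) (u : (pp : R) ^ n ∣ e - e') : C.act e T = C.act e' T := by
  obtain ⟨d, u⟩ := u
  rw [← sub_eq_zero, ← act_sub, u, mul_comm, act_mul, act_pw, k.tor, map_zero]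

theorem Gen.co_dv (k : C.Gen n T) (u : C.act e T = U) : (pp : R) ^ n ∣ C.co T U - e :=
  k.dv ((k.co (u ▸ k.act_tor e)).trans u.symm)

theorem Gen.ga (k : C.Gen n T) (g : GQ) : C.Gen n (ga g T) where
  tor := Ki.tor_map k.tor g
  sp U u := (k.sp _ (Ki.tor_map u g⁻¹)).elim fun e q => ⟨C.s (C.ep g) e, by
    rw [← ga_act, q, ← ga_mul, mul_inv_cancel, ga_one]⟩
  fr e u := by
    have := congrArg (P004M.TE.ga g⁻¹) u
    rw [ga_act, ← ga_mul, inv_mul_cancel, ga_one, map_zero] at this
    have := map_dvd (C.s (C.ep g⁻¹)) (k.fr _ this)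
    rwa [map_pow, map_natCast, s_s, Bool.xor_self, s_f] at this

theorem Gen.cop (k : C.Gen n T) (k' : C.Gen n U) (n0 : 0 < n) : IsCoprime (C.co T U) (pp : R) := by
  obtain ⟨e, q⟩ := k'.sp T k.tor
  obtain ⟨d, u⟩ := (dvd_pow_self _ n0.ne').trans (k.dv (e := e * C.co T U) (e' := 1) (by
    rw [act_mul, k.co k'.tor, q, act_one]))
  exact ⟨e, -d, by linear_combination u⟩

theorem Gen.succ (n0 : 0 < n) (k : C.Gen n (pp • T)) : C.Gen (n + 1) T := by
  obtain ⟨n, rfl⟩ := Nat.exists_eq_add_of_lt n0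
  rw [zero_add] at k ⊢
  refine ⟨by rw [pow_succ, mul_smul, k.tor], fun U u => ?_, fun e u => ?_⟩
  · obtain ⟨e, q⟩ := k.sp (pp • U) (by rw [← mul_smul, ← pow_succ, u])
    obtain ⟨e', q'⟩ := k.sp (U - C.act e T) (by
      rw [pow_succ, mul_smul, nsmul_sub, ← q, map_nsmul, sub_self, nsmul_zero])
    exact ⟨e + e' * pp, by rw [act_add, act_mul, act_nat, q', add_sub_cancel]⟩
  · obtain ⟨d, rfl⟩ := k.fr e (by rw [map_nsmul, u, nsmul_zero])
    obtain ⟨d', q⟩ := k.fr (pp ^ n * d) (by
      rw [← C.act_nat, ← act_mul, ← u, pow_succ, mul_right_comm])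
    rw [pow_succ, mul_assoc] at q
    exact ⟨d', by rw [C.canc n q]; ring⟩

theorem Gen.up (n0 : 0 < n) (m : ℕ) (k : C.Gen n (pp ^ m • T)) : C.Gen (n + m) T := by
  induction m generalizing T with
  | zero => simpa using k
  | succ m ih => exact Gen.succ (Nat.add_pos_left n0 m) (ih (by rwa [← mul_smul, ← pow_succ]))

end Cm

section

variable {w M L E : ℕ} {κ : K} (o : Lo R w M L E κ) (f : R →+ ℤ) {a a' : R}
include o

theorem Lo.one (M0 : 0 < M) (e : R) : lo κ E f (1 + pp ^ M * e) ∈ O :=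
  O_of (add_mem (o.near f e M M0 (by omega)) (O_int (f e))) (by
    linear_combination (f e : K) * hn_mul M)

/-- the logarithm only depends on the class modulo `pp ^ M` -/
theorem Lo.congr (M0 : 0 < M) (c : IsCoprime a (pp : R)) (k : (pp : R) ^ M ∣ a' - a) :
    IsCoprime a' (pp : R) ∧ lo κ E f a' - lo κ E f a ∈ O := by
  obtain ⟨d, k⟩ := k
  obtain ⟨b, e, q⟩ := c.pow_right (n := M)
  have r : IsCoprime a' ((pp : R) ^ M) := ⟨b, e - b * d, by linear_combination q + b * k⟩
  have c' := r.of_isCoprime_of_dvd_right (dvd_pow_self _ M0.ne')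
  have rb : IsCoprime b ((pp : R) ^ M) := ⟨a, e, by linear_combination q⟩
  have cb := rb.of_isCoprime_of_dvd_right (dvd_pow_self _ M0.ne')
  have h1 := o.add f a b c cb
  have h2 := o.add f a' b c' cb
  rw [show a * b = 1 + pp ^ M * -e by linear_combination q] at h1
  rw [show a' * b = 1 + pp ^ M * (b * d - e) by linear_combination q + b * k] at h2
  exact ⟨c', O_of (add_mem (sub_mem h1 h2) (sub_mem (o.one f M0 (b * d - e)) (o.one f M0 (-e))))
    (by ring)⟩

omit o in
theorem lo_s (C : Cm A B S R) (x y : Bool) (a : R) :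
    lo κ E (f.comp (C.s x).toAddMonoidHom) (C.s y a) =
      lo κ E (f.comp (C.s (xor x y)).toAddMonoidHom) a := by
  simp only [lo, AddMonoidHom.comp_apply, RingHom.toAddMonoidHom_eq_coe, AddMonoidHom.coe_coe,
    ← C.s_s, map_sub, map_pow, map_one]

end

end Vale.Agent.P014X.Rx
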