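import Vale.Agent.P014X.Rx.Pr
import Vale.Agent.P014U.St
import Vale.Agent.P014U.Ah.Fc
import Vale.Agent.P014T.Rc.St

/-!
# P014X, block RECX (explicit reciprocity law for elliptic units): words and rows (helper58)
-/

set_option autoImplicit false
set_option linter.all false

open NumberField Finset
open scoped Classical

noncomputable section

namespace Vale.Agent.P014X.Rx

open Vale.Agent.P014U Vale.Agent.P014U.Sy
open Vale.Agent.P022 (Qb GQ)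
open Vale.Agent.P022D.W (dec)
open Vale.Agent.P022.H443 (inP)
open Vale.Agent.P022E.GW (Ov Fb)
open X4S.Ga (K O)
open X4S.Aq (cy)
open X4F.Rc (mq hn)
open Vale.Agent.P004F (hq)
open P004M.TE (Pt ga)
open Bt (T2)
open P014T.Wm (Fx)
open P014T.Kc (Tr)
open P014T.Rc (zw)
open Lc (Lk)
open Ah (Ind am iv_iv)
open P014T.Top (El)
open P014U.Top (Rc)

variable [Pp] {A B : ℤ}

/-! ## the function -/

/-- the first coordinate -/
def xc : Pt A B → Qb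
  | .zero => 0
  | .some x _ _ => x

/-- the second coordinate -/
def yc : Pt A B → Qb
  | .zero => 0
  | .some _ y _ => y

/-- `Θ = k / ∏ (x - r)` has its poles at points of order dividing `c` and is fixed by the norm -/
structure Th (c : ℕ) (Θ : Pt A B → Qb) (Z : Multiset Qb) (k : Qb) : Prop where
  ne : k ≠ 0
  rt : ∀ r ∈ Z, ∃ T : Pt A B, T ≠ 0 ∧ c • T = 0 ∧ xc T = r
  eq : ∀ Q, c • Q ≠ 0 → Θ Q * (Z.map fun r => xc Q - r).prod = k
  gz : ∀ g : GQ, Z.map g = Z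
  gal : ∀ (g : GQ) Q, c • Q ≠ 0 → g (Θ Q) = Θ (ga g Q)
  dis : ∀ Q (F : Finset (Pt A B)), (∀ T, T ∈ F ↔ pp • T = 0) → c • pp • Q ≠ 0 →
    ∏ T ∈ F, Θ (Q + T) = Θ (pp • Q)

/-- the logarithmic derivative of `Θ` for the differential `dx / 2y` -/
def Dl (Z : Multiset Qb) (Q : Pt A B) : Qb := -(Z.map fun r => 2 * yc Q / (xc Q - r)).sum

/-- good torsion points -/
def Gq (c : ℕ) (Q : Pt A B) : Prop := IsOfFinAddOrder Q ∧ ∀ a : ℕ, c • pp ^ a • Q ≠ 0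

/-! ## complex multiplication -/

/-- complex multiplication by `R = ℤ[ω]`, normalised along `j` -/
structure Cm (A B : ℤ) (S : Finset ℕ) (R : Type) [CommRing R] where
  j : R →+* 𝓞 Qb
  σ : R →+* R
  G : Subgroup GQ
  act : R →+* AddMonoid.End (Pt A B)
  ω : R
  nm : R → ℤ
  w : ℕ
  inj : Function.Injective j
  inv : ∀ e, σ (σ e) = e
  bas : ∀ e, ∃ a b : ℤ, e = a + b * ω
  ne : σ ω ≠ ω
  nme : ∀ e, (nm e : R) = e * σ e
  w0 : w ≠ 0
  un : ∀ e : R, IsUnit e → e ^ w = 1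
  fix : ∀ g ∈ G, ∀ e, g • j e = j e
  cj : ∀ g ∉ G, ∀ e, g • j e = j (σ e)
  lin : ∀ g ∈ G, ∀ e T, ga g (act e T) = act e (ga g T)
  sem : ∀ g ∉ G, ∀ e T, ga g (act e T) = act (σ e) (ga g T)
  unr : ∀ l Q, Ov l Q → l ∉ S → ∀ i ∈ inP Q, i ∈ G ∧ ∀ T ∈ T2 A B, ga i T = T
  spl : ∀ l Q φ, Ov l Q → l ∉ S → Fb l Q φ → φ ∈ G → ∃ π, Prime π ∧ π * σ π = l ∧ j π ∈ Q ∧
    j (σ π) ∉ Q ∧ ∀ T ∈ T2 A B, ga φ T = act π T
  ine : ∀ l Q φ, Ov l Q → l ∉ S → Fb l Q φ → φ ∉ G → Prime (l : R) ∧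
    ∃ ζ, IsUnit ζ ∧ ∀ T ∈ T2 A B, ga (φ * φ) T = act (ζ * l) T

namespace Cm

variable {S : Finset ℕ} {R : Type} [CommRing R] (C : Cm A B S R)

/-- the identity or the conjugation -/
def s (x : Bool) : R →+* R := if x then C.σ else RingHom.id R

/-- the sign of `g` -/
def ep (g : GQ) : Bool := decide (g ∉ C.G)

/-- the action on the two embeddings -/
def al (g : GQ) (x : Bool) : Bool := xor (C.ep g) x

/-- the two conjugates -/
def em (e : R) (x : Bool) : Qb := C.j (C.s x e)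

/-- `T` is a basis of the points of order `pp ^ n` -/
structure Gen (n : ℕ) (T : Pt A B) : Prop where
  tor : pp ^ n • T = 0
  sp : ∀ U, pp ^ n • U = 0 → ∃ e, C.act e T = U
  fr : ∀ e, C.act e T = 0 → (pp : R) ^ n ∣ e

/-- the coordinate of `U` in the basis `T` -/
def co (T U : Pt A B) : R := Function.invFun (fun e => C.act e T) U

end Cm

/-! ## the truncated logarithm -/

section

variable {R : Type} [CommRing R]

/-- the truncated logarithm -/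
def lo (κ : K) (E : ℕ) (f : R →+ ℤ) (a : R) : K := κ * f (a ^ E - 1)

variable (R) in
/-- its properties -/
structure Lo (w M L E : ℕ) (κ : K) : Prop where
  le : M ≤ L
  dv : w ∣ E
  lev : ∀ (f : R →+ ℤ) a, IsCoprime a (pp : R) → (pp : K) ^ L * lo κ E f a ∈ O
  add : ∀ (f : R →+ ℤ) a b, IsCoprime a (pp : R) → IsCoprime b (pp : R) →
    lo κ E f (a * b) - lo κ E f a - lo κ E f b ∈ O
  near : ∀ (f : R →+ ℤ) e (k : ℕ), 0 < k → M ≤ 2 * k →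
    lo κ E f (1 + pp ^ k * e) - hn M * pp ^ k * f e ∈ O

end

variable {S : Finset ℕ} {R : Type} [CommRing R]

/-- the logarithm of the character of complex multiplication -/
def La (C : Cm A B S R) (T : Pt A B) (κ : K) (E : ℕ) (f : R →+ ℤ) (g : GQ) (x : Bool) : K :=
  lo κ E (f.comp (C.s (C.al g x)).toAddMonoidHom) (C.co T (ga g T))

/-- **the class of the unit** `Θ (ρ + T)` at level `N` -/
structure Ud (h : El A B) (C : Cm A B S R) (c N : ℕ) (Θ : Pt A B → Qb) (H : Subgroup GQ)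
    (ρ T t : Pt A B) (β : Qb) (f : R →+ ℤ) (z : GQ → Pt A B) : Prop where
  pos : 0 < N
  gen : C.Gen N T
  rho : ∃ u : ℕ, ¬ pp ∣ u ∧ u • ρ = 0
  cr : c • ρ ≠ 0
  op : IsOpen (H : Set GQ)
  le : H ≤ C.G
  fx : ∀ g ∈ H, ga g ρ = ρ ∧ ga g T = T
  tor : pp ^ N • t = 0
  pr : ∀ e, Ki.wp (hq h) N (C.act e T) t - hn N * f e ∈ O
  rt : β ^ pp ^ N = Θ (ρ + T)
  ku : ∀ g ∈ H, ∃ k : ℤ, g β = ex (hn N * k) * β ∧ z g = k • t

/-! ## rows -/

/-- **first order expansion**, uniform in the torsion point -/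
def TAY : Prop := ∀ (A B : ℤ), El A B → ∀ ι P, Ind ι P → ∀ lg : Fx A B (dec P) →+ K, Lk ι lg →
  ∀ c (Θ : Pt A B → Qb) Z k, Th c Θ Z k → ¬ pp ∣ c → Odd c → ∀ y : Fx A B (dec P),
    ∃ (u a : ℕ), ¬ pp ∣ u ∧ ∀ i, a ≤ i → ∀ Q, Gq c Q → c • (Q + pp ^ i • u • y.1) ≠ 0 ∧
      ‖ι (Θ (Q + pp ^ i • u • y.1) / Θ Q - 1)‖ * (pp : ℝ) ^ i ≤ (pp : ℝ) ^ a ∧
      ‖ι (Θ (Q + pp ^ i • u • y.1) / Θ Q - 1) - pp ^ i * am (lg (u • y)) * ι (Dl Z Q)‖ *
        (pp : ℝ) ^ (2 * i) ≤ (pp : ℝ) ^ a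

/-- the truncated logarithm exists -/
def LOG : Prop := ∀ (R : Type) [CommRing R] (ω : R), (∀ e : R, ∃ a b : ℤ, e = a + b * ω) →
  ∀ w M : ℕ, w ≠ 0 → ∃ L E κ, Lo R w M L E κ

/-- approximation of local elements by global ones -/
def APX : Prop := ∀ (A B : ℤ) S (R : Type) [CommRing R] (C : Cm A B S R) ι P, Ind ι P →
  ∃ a : ℕ, ∀ (v : Bool → Qb) (r L m : ℕ), (∀ g ∈ dec P, ∀ x, g (v x) = v (C.al g x)) → ¬ pp ∣ m →
    (∀ x, ‖ι (v x)‖ * (pp : ℝ) ^ (r + a) ≤ 1) →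
    ∃ e : R, (m : R) ∣ e ∧ ∀ x, ‖ι (pp ^ r * C.em e x - v x)‖ * (pp : ℝ) ^ L ≤ 1

/-- **global reciprocity for the logarithm of the character** -/
def GLO : Prop := ∀ (A B : ℤ) S (R : Type) [CommRing R] (C : Cm A B S R), pp ∈ S →
  (∀ q ∈ S, q.Prime) → ∀ M L E κ T (f : R →+ ℤ), 0 < M → C.Gen M T → Lo R C.w M L E κ →
    C1 ⊤ C.al univ L 1 (La C T κ E f) ∧ ∀ P (o : Ov pp P) e, IsCoprime e (pp : R) →
      (∀ q ∈ S, q ≠ pp → (q : R) ∣ e - 1) →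
      pr (fdQ (dec P) (iv_iv o)) C.al univ L (La C T κ E f) (C.em e) = -mq (lo κ E f e)

/-- **the explicit reciprocity law** -/
def RECX : Prop := ∀ (A B : ℤ) (h : El A B) S (R : Type) [CommRing R] (C : Cm A B S R), pp ∈ S →
  (∀ q ∈ S, q.Prime) → ∀ c (Θ : Pt A B → Qb) Z k, Th c Θ Z k → ¬ pp ∣ c → Odd c →
  ∀ N H ρ T t β f z, Ud h C c N Θ H ρ T t β f z → ∀ b : Bool → Qb,
    (∀ e, (f e : Qb) = b false * C.em e false + b true * C.em e true) →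
  ∀ ι P, Ind ι P → ∀ lg : Fx A B (dec P) →+ K, Lk ι lg →
  ∀ (J : Type) [Fintype J] s p (W : J → ℤ), Tr ⊤ H s p → (∀ g ∈ dec P, ∀ i, W (p g i) = W i) →
    Cp.Zn (dec P) N (zw s p W z) ∧ ∃ μ : K,
      am μ * pp ^ N = ι (∑ i, W i * b (C.ep (s i)) * Dl Z (ga (s i) (ρ + T))) ∧
      Rc h P lg 0 N (zw s p W z) μ

end Vale.Agent.P014X.Rx
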