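import Vale.Agent.P014X.Rx.Cm0
import Vale.Agent.P014X.Rx.St
import Vale.Agent.P014U.X4M.TE.Red

/-! # P014X: the supplier of `Rx.Cm` -/

set_option autoImplicit false
set_option linter.all false

open NumberField
open scoped Classical

noncomputable section

namespace Vale.Agent.P014X.Cs

open Vale.Agent.P022 P027H P004K P004K.Rc Vale.Agent.P014U
open P027M.M (io)
open Vale.Agent.P022E.GW (Ov Fb)
open P004M.TE (Pt ga Cv pa pa_inj)
open Rx (Cm)

variable [Pp] {A B : ℤ} {Λ : Submodule ℤ ℂ} {ex : ℂ →+ (Cv ℂ (A : ℚ) (B : ℚ)).Point}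
  {K : Type} [Field K] [NumberField K] {j : K →+* Qb} {ω : 𝓞 K} {s : 𝓞 K →+* 𝓞 K}
  {act : 𝓞 K →+* AddMonoid.End (Pt A B)} {l : ℕ} {Q : Ideal (𝓞 Qb)}

omit [Pp] in
theorem smul_of {g : GQ} {a b : 𝓞 K} (h : g (j a) = j b) :
    g • RingOfIntegers.mapRingHom j a = RingOfIntegers.mapRingHom j b := RingOfIntegers.ext h

omit [Pp] in
theorem bl_mem (o : Ov l Q) : (l : 𝓞 K) ∈ below j Q := by simpa [below] using o.2.2

omit [Pp] in
theorem bl_prime (o : Ov l Q) : (below j Q).IsPrime := o.2.1.comap _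

omit [Pp] in
theorem bl_ne (o : Ov l Q) : below j Q ≠ ⊥ := fun c => o.1.ne_zero (by simpa [c] using bl_mem (j := j) o)

theorem t2_of (o : Ov l Q) (h : l ≠ pp) {f : Pt A B → Prop}
    (k : ∀ a ∉ below j Q, ∀ y, act a y = 0 → f y) : ∀ T ∈ Bt.T2 A B, f T := fun T ⟨n, e⟩ =>
  k (pp ^ n : ℕ) (fun m => (bl_prime (j := j) o).ne_top ((Ideal.eq_top_iff_one _).2 (by
    obtain ⟨u, v, c⟩ := Nat.isCoprime_iff_coprime.2
      (((Nat.coprime_primes o.1 pp_prime).2 h).pow_right n)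
    have := congrArg (Int.cast : ℤ → 𝓞 K) c
    simp only [Int.cast_add, Int.cast_mul, Int.cast_natCast, Int.cast_one] at this
    exact this ▸ add_mem (Ideal.mul_mem_left _ _ (bl_mem o)) (Ideal.mul_mem_left _ _ m)))) T
    (by rw [map_natCast]; exact e)

/-- **complex multiplication in Frobenius form** -/
theorem cms (U : Uf A B Λ ex) (iq : Iq K) (kl : KL (JJ j) 1 Λ) (q : Qd (JJ j) ω s)
    (H : Ac (JJ j) ex act) : ∃ S₀ : Finset ℕ, (∀ l ∈ S₀, l.Prime) ∧ ∀ S, S₀ ⊆ S → pp ∈ S →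
      ∃ C : Cm A B S (𝓞 K), C.j = RingOfIntegers.mapRingHom j ∧ C.σ = s ∧ C.G = GK j ∧
        C.act = act ∧ C.ω = ω ∧ C.w = 12 := by
  obtain ⟨d, d0, hd⟩ := ex_disc q
  refine ⟨(d * (2 * (4 * A ^ 3 + 27 * B ^ 2))).natAbs.primeFactors,
    fun l m => Nat.prime_of_mem_primeFactors m, fun S hS p0 => ?_⟩
  have gd {l Q} (o : Ov l Q) (m : l ∉ S) : s ω - ω ∉ below j Q ∧
      ¬ (l : ℤ) ∣ 2 * (4 * A ^ 3 + 27 * B ^ 2) ∧ l ≠ pp := by
    have k : ¬ (l : ℤ) ∣ d * (2 * (4 * A ^ 3 + 27 * B ^ 2)) := fun c =>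
      m (hS (Nat.mem_primeFactors.2 ⟨o.1, Int.natCast_dvd.1 c, Int.natAbs_ne_zero.2
        (mul_ne_zero d0 (mul_ne_zero two_ne_zero U.el))⟩))
    exact ⟨fun c => k ((hd l _ o.1 (bl_prime o).ne_top (bl_mem o) c).mul_right _),
      fun c => k (c.mul_left _), fun c => m (c ▸ p0)⟩
  choose nm hnm using q.nm
  refine ⟨{ j := RingOfIntegers.mapRingHom j, σ := s, G := GK j, act := act, ω := ω, nm := nm
            w := 12
            inj := fun x y e => RingOfIntegers.ext (j.injective (congrArg Subtype.val e))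
            inv := q.ss, bas := q.sp
            ne := fun e => q.im.ne' (Complex.conj_eq_iff_im.1 (by rw [← q.cj, e]))
            nme := fun e => (hnm e).symm, w0 := by norm_num, un := fun e => unit_pow q
            fix := fun g hg e => smul_of (hg _)
            cj := fun g hg e => smul_of (cj_of iq q hg e)
            lin := fun g hg e T => let ⟨_, k⟩ := ex_ex g; U.act_ga H kl k (k.JJ hg e) T
            sem := fun g hg e T => let ⟨_, k⟩ := ex_ex g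
              U.act_ga H kl k ((k _).trans (congrArg io (cj_of iq q hg e))) T
            unr := fun l Q o m i hi => ⟨by_contra fun c => (gd o m).1 ?_, fun T ⟨n, e⟩ => ?_⟩
            spl := fun l Q φ o m f hg => ?_
            ine := fun l Q φ o m f hg => ?_ }, rfl, rfl, rfl, rfl, rfl, rfl⟩
  · have := hi (RingOfIntegers.mapRingHom j ω)
    rwa [smul_of (cj_of iq q c ω), ← map_sub] at this
  · have := Fact.mk o.1
    obtain ⟨κ, _, _, _, rd, h1, h2, -⟩ := X4M.TE.exists_rdn (gd o m).2.1 o.2.1 o.2.2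
    exact sub_eq_zero.1 (h1 (pp ^ n) _ (fun c => (gd o m).2.2 ((Nat.prime_dvd_prime_iff_eq o.1
      pp_prime).1 (o.1.dvd_of_dvd_pow c))) (by rw [nsmul_sub, ← map_nsmul, e, map_zero, sub_self])
      (by rw [map_sub, h2 i hi, sub_self]))
  · have w1 : ω ^ l - ω ∈ below j Q := by
      have := neg_mem (f (RingOfIntegers.mapRingHom j ω))
      rwa [smul_of (hg _), neg_sub, ← map_pow, ← map_sub] at this
    obtain ⟨a1, a2, -⟩ := (dich iq q o.1 (bl_prime o) (bl_mem o)).resolve_right fun c => c.2.2 w1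
    obtain ⟨π, e, k⟩ := frob U H iq kl hg o.2.1 (bl_ne o) 1 (by rwa [a1, pow_one])
    rw [pow_one] at e
    have π0 : π ≠ 0 := fun c => bl_ne o (by rw [← e, c, Ideal.span_singleton_eq_bot])
    have pr : Prime π := (Ideal.span_singleton_prime π0).1 (e ▸ bl_prime o)
    refine ⟨π, pr, nm_eq q o.1 pr (Ideal.mem_span_singleton.1 (e ▸ bl_mem o)) (e ▸ a2),
      (e ▸ Ideal.mem_span_singleton_self π : π ∈ below j Q), fun c => (gd o m).1 ?_,
      t2_of o (gd o m).2.2 k⟩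
    obtain ⟨n, w2⟩ := int_of_pow o.1 (bl_prime o) (bl_mem o) w1
    obtain ⟨x, w3⟩ := Ideal.mem_span_singleton.1 (e ▸ w2)
    have w4 := congrArg s w3
    rw [map_sub, map_intCast, map_mul] at w4
    have := sub_mem ((below j Q).mul_mem_right (s x) c) w2
    rwa [← w4, sub_sub_sub_cancel_right] at this
  · obtain ⟨a1, a2, -⟩ := (dich iq q o.1 (bl_prime o) (bl_mem o)).resolve_left fun c => (gd o m).1 (by
      have := f (RingOfIntegers.mapRingHom j ω)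
      rw [smul_of (cj_of iq q hg ω), ← map_pow, ← map_sub] at this
      simpa using add_mem (show _ ∈ below j Q from this) (c.2.2 ω))
    obtain ⟨π, e, k⟩ := frob U H iq kl (g := φ * φ)
      (by simpa using H916.mul_inv_mem j iq.two hg (mt (inv_mem_iff (x := φ)).1 hg)) o.2.1 (bl_ne o) 1
      fun x => by
        have := add_mem (f (φ • x)) (Ideal.mem_of_dvd _ (sub_dvd_pow_sub_pow _ _ l) (f x))
        rwa [sub_add_sub_cancel, ← mul_smul, ← pow_mul, ← sq l, ← a1, ← pow_one (Ideal.absNorm _)] at this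
    rw [pow_one, a2] at e
    obtain ⟨ζ, rfl⟩ := (Ideal.span_singleton_eq_span_singleton.1 e).symm
    exact ⟨(Ideal.span_singleton_prime (Nat.cast_ne_zero.2 o.1.ne_zero)).1 (a2 ▸ bl_prime o), ζ,
      ζ.isUnit, mul_comm (l : 𝓞 K) ζ ▸ t2_of o (gd o m).2.2 k⟩

/-- a basis at every level -/
theorem ex_basis {S : Finset ℕ} (C : Cm A B S (𝓞 K)) (U : Uf A B Λ ex) (q : Qd (JJ j) ω s)
    (H : Ac (JJ j) ex C.act) {v : ℂ} (v0 : v ≠ 0) (hv : ∀ z, z ∈ Λ ↔ ∃ x, z = JJ j x * v) (n : ℕ) :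
    ∃ T, ex (v / pp ^ n) = pa io T ∧ C.Gen n T := by
  obtain ⟨T, a, b, c⟩ := U.gen H q v0 hv (m := pp ^ n) (pow_ne_zero _ (Nat.cast_ne_zero.2 pp_ne))
  have e (y : Pt A B) : C.act (pp ^ n) y = pp ^ n • y := by
    rw [← Nat.cast_pow, map_natCast]
    rfl
  rw [map_pow, map_natCast] at a
  exact ⟨T, a, e T ▸ (b _).2 dvd_rfl, fun y hy => c y ((e y).trans hy), fun x => (b x).1⟩

/-- **everything at once** -/
theorem cms_all (h2 : g2 Λ = -4 * A) (h3 : g3 Λ = -4 * B) (iq : Iq K) (kl : KL (JJ j) 1 Λ) :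
    IsPrincipalIdealRing (𝓞 K) ∧ ∃ ex ω s v, Uf A B Λ ex ∧ Qd (JJ j) ω s ∧ v ≠ 0 ∧
      (∀ z, z ∈ Λ ↔ ∃ x, z = JJ j x * v) ∧ ∃ S₀ : Finset ℕ, (∀ l ∈ S₀, l.Prime) ∧
        ∀ S, S₀ ⊆ S → pp ∈ S → ∃ C : Cm A B S (𝓞 K), C.j = RingOfIntegers.mapRingHom j ∧ C.σ = s ∧
          C.G = GK j ∧ C.ω = ω ∧ Ac (JJ j) ex C.act ∧
          ∀ n, ∃ T, ex (v / pp ^ n) = pa io T ∧ C.Gen n T := by
  obtain ⟨ex, U⟩ := ex_uf kl.lat h2 h3
  obtain ⟨ω, s, q⟩ := qd j iq
  have := pid U iq kl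
  obtain ⟨v, v0, hv⟩ := ex_gen q kl
  obtain ⟨act, H⟩ := U.ex_act kl alg_J
  obtain ⟨S₀, a, b⟩ := cms U iq kl q H
  refine ⟨this, ex, ω, s, v, U, q, v0, hv, S₀, a, fun S m p => ?_⟩
  obtain ⟨C, c1, c2, c3, rfl, c4, -⟩ := b S m p
  exact ⟨C, c1, c2, c3, c4, H, ex_basis C U q H v0 hv⟩

end Vale.Agent.P014X.Cs
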