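import Vale.Agent.P014X.Rx.Sb

/-!
# P014X, block RECX: families of bases of the torsion points (helper58)
-/

set_option autoImplicit false
set_option linter.all false

open NumberField Finset
open scoped Classical

noncomputable section

namespace Vale.Agent.P014X.Rx

open Vale.Agent.P014U Vale.Agent.P014U.Sy Vale.Agent.P014U.Sy.Fd
open Vale.Agent.P022 (Qb GQ)
open X4S.Ga (K O)
open X4S.Aq
open X4F.Rc (mq hn hn_mul mq_eq mq_zero)
open P004M.TE (Pt ga ga_mul ga_one)
open P014T.Top (El)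

variable [Pp] {A B : ℤ} {S₀ : Finset ℕ} {R : Type} [CommRing R] {C : Cm A B S₀ R} (f : R →+ ℤ)
  {X : Type} {D : Subgroup GQ} {α : GQ → X → X} {S : Finset X} {n : ℕ} {ε : X → Bool} {W : X → ℤ}
  {T T' : X → Pt A B} {V U : Pt A B} {e : R}

variable (C) in
/-- the character attached to a basis -/
def tb (n : ℕ) (y : Bool) (a : ℤ) (V U : Pt A B) : K := a * (hn n * f (C.s y (C.co V U)))

theorem f_pw (n : ℕ) (e : R) : (f (pp ^ n * e) : K) = pp ^ n * f e := by
  rw [← Nat.cast_pow, ← nsmul_eq_mul, map_nsmul]; simp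

theorem tb_eq (k : C.Gen n V) (u : C.act e V = U) (y : Bool) (a : ℤ) :
    tb C f n y a V U - a * (hn n * f (C.s y e)) ∈ O := by
  obtain ⟨d, q⟩ := k.co_dv u
  rw [tb, sub_eq_iff_eq_add'.1 q, map_add, map_add, map_mul, map_pow, map_natCast, Int.cast_add, f_pw]
  exact O_of (O_mul (O_int a) (O_int (f (C.s y d)))) (by
    linear_combination (a * f (C.s y d) : K) * hn_mul n)

theorem tb_up (n0 : 0 < n) (m : ℕ) (k : C.Gen n (pp ^ m • V)) (u : pp ^ n • U = 0) (y : Bool)
    (a : ℤ) : tb C f (n + m) y a V U - tb C f n y a (pp ^ m • V) U ∈ O := by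
  have := tb_eq f (k.up n0 m) (e := pp ^ m * C.co (pp ^ m • V) U) (by
    rw [mul_comm, C.act_mul, C.act_pw, k.co u]) y a
  rw [map_mul, map_pow, map_natCast, f_pw, ← mul_assoc (hn _), hn_add] at this
  exact this

variable (C) in
/-- equivariant families of bases -/
structure Fa (D : Subgroup GQ) (α : GQ → X → X) (S : Finset X) (n : ℕ) (ε : X → Bool) (W : X → ℤ)
    (T : X → Pt A B) : Prop where
  ds : Ds D α S
  ep : ∀ g ∈ D, ∀ x ∈ S, ε (α g x) = C.al g (ε x)
  wt : ∀ g ∈ D, ∀ x ∈ S, W (α g x) = W x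
  ev : Ev D α S T
  gen : ∀ x ∈ S, C.Gen n (T x)

variable (C) in
/-- the family of characters -/
def ta (n : ℕ) (ε : X → Bool) (W : X → ℤ) (T : X → Pt A B) (x : X) : Pt A B → K :=
  tb C f n (ε x) (W x) (T x)

variable (F : Fa C D α S n ε W T)
include F

theorem Fa.ch : Ch D α S n (ta C f n ε W T) where
  add x hx a b ha hb := by
    have k := F.gen x hx
    have := tb_eq f k (e := C.co (T x) a + C.co (T x) b) (by rw [C.act_add, k.co ha, k.co hb])
      (ε x) (W x)
    exact O_of this (by simp only [ta, tb, map_add, Int.cast_add]; ring)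
  eq g hg x hx a ha := by
    have := tb_eq f (F.gen _ (F.ds.mem g hg x hx)) (e := C.s (C.ep g) (C.co (T x) a)) (U := ga g a)
      (by rw [← F.ev g hg x hx, ← C.ga_act, (F.gen x hx).co ha]) (ε (α g x)) (W (α g x))
    rwa [F.ep g hg x hx, C.s_al, ← F.ep g hg x hx, F.wt g hg x hx, ← F.wt g hg x hx,
      show (W (α g x) : K) * (hn n * f (C.s (ε x) (C.co (T x) a))) = ta C f n ε W T x a by
        rw [F.wt g hg x hx]; rfl] at this

omit f in
theorem Fa.mp : Mp D α S C.al univ ε := ⟨fun _ _ => mem_univ _, F.ep⟩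

omit f in
theorem Fa.up (h : El A B) (n0 : 0 < n) {Y ρ : X → Pt A B} (eY : Ev D α S Y) (eρ : Ev D α S ρ)
    (m : ℕ) (q : ∀ x ∈ S, Y x - pp ^ m • ρ x = T x) :
    Fa C D (ac α) (cv h S m Y) (n + m) (fun p => ε p.1) (fun p => W p.1) fun p => p.2 - ρ p.1 where
  ds := cv_ds h F.ds eY
  ep g hg p u := F.ep g hg _ ((mem_cv h).1 u).1
  wt g hg p u := F.wt g hg _ ((mem_cv h).1 u).1
  ev g hg p u := by rw [map_sub, eρ g hg _ ((mem_cv h).1 u).1]; rfl
  gen p u := Cm.Gen.up n0 m (by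
    rw [nsmul_sub, ((mem_cv h).1 u).2, q _ ((mem_cv h).1 u).1]; exact F.gen _ ((mem_cv h).1 u).1)

/-- **the Kummer character of a basis is the logarithm of the character** -/
theorem Fa.la (n0 : 0 < n) (q : pp ^ n • T' = T) (k : C.Gen (n + n) V) {w L E : ℕ} {κ : K}
    (o : Lo R w (n + n) L E κ) : ∃ v : X → K, (∀ x ∈ S, (pp : K) ^ L * v x ∈ O) ∧
      ∀ g ∈ D, ∀ x ∈ S, Rx.ch α (ta C f n ε W T) T' g x - W x * La C V κ E f g (ε x) -
        (v x - v (α g x)) ∈ O := by
  subst q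
  have n2 : 0 < n + n := by omega
  have gn (x) (hx : x ∈ S) : C.Gen (n + n) (T' x) := (F.gen x hx).up n0 n
  have cb (x) (hx : x ∈ S) := k.cop (gn x hx) n2
  refine ⟨fun x => W x * lo κ E (f.comp (C.s (ε x)).toAddMonoidHom) (C.co V (T' x)),
    fun x hx => O_of (O_mul (O_int (W x)) (o.lev _ _ (cb x hx))) (by ring), fun g hg x hx => ?_⟩
  have m := F.ds.mem g hg x hx
  have ca := k.cop (k.ga g) n2
  have cs : IsCoprime (C.s (C.ep g) (C.co V (T' x))) (pp : R) := by
    simpa using (cb x hx).map (C.s (C.ep g))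
  have u := (F.gen _ m).co (F.ev.tor hg hx)
  generalize he : C.co ((pp ^ n • T') (α g x)) (ga g (T' x) - T' (α g x)) = e at u
  have c1 : IsCoprime (1 + pp ^ n * e) (pp : R) := by
    obtain ⟨n, rfl⟩ := Nat.exists_eq_add_of_lt n0
    exact ⟨1, -(pp ^ (0 + n) * e), by ring⟩
  have dv := k.dv (e := C.s (C.ep g) (C.co V (T' x)) * C.co V (ga g V))
    (e' := C.co V (T' (α g x)) * (1 + pp ^ n * e)) (by
      rw [C.act_mul, k.co (k.ga g).tor, ← C.ga_act, k.co (gn x hx).tor, mul_comm, C.act_mul,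
        k.co (gn _ m).tor, C.act_add, C.act_one, mul_comm, C.act_mul, C.act_pw, ← Pi.smul_apply,
        u, add_sub_cancel])
  have h1 := o.add (f.comp (C.s (C.al g (ε x))).toAddMonoidHom) _ _ cs ca
  have h2 := o.add (f.comp (C.s (C.al g (ε x))).toAddMonoidHom) _ _ (cb _ m) c1
  have h3 := (o.congr (f.comp (C.s (C.al g (ε x))).toAddMonoidHom) n2 ((cb _ m).mul_left c1) dv).2
  have h4 := o.near (f.comp (C.s (C.al g (ε x))).toAddMonoidHom) e n n0 (by omega)
  rw [hn_add] at h4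
  rw [lo_s, show xor (C.al g (ε x)) (C.ep g) = ε x by
    rw [Cm.al]; cases C.ep g <;> cases ε x <;> rfl] at h1
  refine O_of (O_mul (O_int (W x)) (sub_mem (sub_mem (sub_mem h1 h3) h2) h4)) ?_
  simp only [Rx.ch, ta, tb, he, La, F.ep g hg x hx, F.wt g hg x hx, AddMonoidHom.comp_apply,
    RingHom.toAddMonoidHom_eq_coe, AddMonoidHom.coe_coe]
  ring

end Vale.Agent.P014X.Rx
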