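import Vale.Agent.P014U.Sy.Val

/-!
# P014X, block RECX: the pairing of a cocycle and an equivariant function (helper58)
-/

set_option linter.all false

noncomputable section

namespace Vale.Agent.P014X.Rx

open Vale.Agent.P014U Vale.Agent.P014U.Sy Vale.Agent.P014U.Sy.Fd
open Vale.Agent.P022 Finset
open Vale.Agent.P014U.X4S.Ga (K O mem_O d2 d3 Z2 B2)
open Vale.Agent.P014U.X4S.Aq
open Vale.Agent.P014U.X4F.Rc (hn hn_mul O_nat nz_pw)

variable [Pp]

theorem ex_int (m : ℤ) (x : K) : ex (m * x) = ex x ^ m := by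
  obtain ⟨m, rfl | rfl⟩ := m.eq_nat_or_neg
  · rw [Int.cast_natCast, ex_nat, zpow_natCast]
  · rw [Int.cast_neg, Int.cast_natCast, neg_mul, ex_neg, ex_nat, zpow_neg, zpow_natCast]

theorem O_int (c : ℤ) : (c : K) ∈ O := by
  obtain ⟨m, rfl | rfl⟩ := c.eq_nat_or_neg
  · exact_mod_cast O_nat m
  · exact_mod_cast neg_mem (O_nat m)

variable {L X Y : Type} [Field L] [IsAlgClosed L]

/-- **the pairing** -/
def pr (F : Fd L) (α : GQ → X → X) (S : Finset X) (n : ℕ) (u : GQ → X → K) (b : X → L) : K ⧸ O :=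
  F.ι (cup α S n u (F.kp α (ro n b)))

variable {F : Fd L} {α : GQ → X → X} {S : Finset X} {α' : GQ → Y → Y} {R : Finset Y} {n : ℕ}
  {b b' c : X → L} {u u' l : GQ → X → K}

omit [IsAlgClosed L] in
theorem c1_wt (a : C1 F.D α S n 1 u) {W : X → ℤ} (hW : ∀ g ∈ F.D, ∀ x ∈ S, W (α g x) = W x) :
    C1 F.D α S n 1 fun g x => W x * u g x :=
  ⟨fun x hx => continuousOn_const.mul (a.cont x hx),
    fun g hg x hx => O_of (O_mul (O_int (W x)) (a.lev g hg x hx)) (by ring),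
    fun g hg h hh x hx => O_of (O_mul (O_int (W x)) (a.coc g hg h hh x hx)) (by
      rw [hW h hh x hx]; ring)⟩

omit [IsAlgClosed L] in
theorem G_wt (hb : b ∈ F.G α S) {W : X → ℤ} (hW : ∀ g ∈ F.D, ∀ x ∈ S, W (α g x) = W x) :
    (fun x => b x ^ W x) ∈ F.G α S := fun x hx =>
  ⟨zpow_ne_zero _ (hb x hx).1, zpow_mem (hb x hx).2.1 _, fun g hg => by
    dsimp only
    rw [map_zpow₀, (hb x hx).2.2 g hg, hW g hg x hx]⟩

section

variable (d : Ds F.D α S) (a : C1 F.D α S n 1 u) (hb : b ∈ F.G α S)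
include d a hb

theorem pr_eq (h : F.Ku α S n b l) : pr F α S n u b = F.ι (cup α S n u l) := by
  have q := ku_kp d hb fun x _ => ro_pow n b x
  obtain ⟨c, c1, c2⟩ := q.dif h d hb
  exact F.iv.cup d a a (q.c1 d hb) (h.c1 d hb) (v := 0) (fun _ _ => by simp) c1
    (fun _ _ _ _ => by simp) c2

theorem pr_addl (a' : C1 F.D α S n 1 u') :
    pr F α S n (fun g x => u g x + u' g x) b = pr F α S n u b + pr F α S n u' b := by
  have q := (ku_kp d hb fun x _ => ro_pow n b x).c1 d hb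
  rw [pr, pr, pr, ← F.iv.add _ _ (cup_z2 d a q) (cup_z2 d a' q)]
  refine congrArg F.ι (funext₂ fun g h => ?_)
  simp only [cup, ← sum_add_distrib]
  exact sum_congr rfl fun _ _ => by ring

theorem pr_mul (hb' : b' ∈ F.G α S) :
    pr F α S n u (b * b') = pr F α S n u b + pr F α S n u b' := by
  obtain ⟨k, p⟩ := ex_ku d hb n
  obtain ⟨k', p'⟩ := ex_ku d hb' n
  rw [pr_eq d a (mul_mem hb hb') (p.mul p'), pr_eq d a hb p, pr_eq d a hb' p',
    ← F.iv.add _ _ (cup_z2 d a (p.c1 d hb)) (cup_z2 d a (p'.c1 d hb'))]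
  refine congrArg F.ι (funext₂ fun g h => ?_)
  simp only [cup, ← sum_add_distrib]
  exact sum_congr rfl fun _ _ => by ring

/-- cohomologous cocycles -/
theorem pr_cob (a' : C1 F.D α S n 1 u') {v : X → K} (hv : ∀ x ∈ S, (pp : K) ^ n * v x ∈ O)
    (e : ∀ g ∈ F.D, ∀ x ∈ S, u g x - u' g x - (v x - v (α g x)) ∈ O) :
    pr F α S n u b = pr F α S n u' b := by
  have q := (ku_kp d hb fun x _ => ro_pow n b x).c1 d hb
  exact F.iv.cup d a a' q q hv (c := 0) (fun _ _ => by simp) e fun _ _ _ _ => by simp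

theorem pr_zero {v : X → K} (hv : ∀ x ∈ S, (pp : K) ^ n * v x ∈ O)
    (e : ∀ g ∈ F.D, ∀ x ∈ S, u g x - (v x - v (α g x)) ∈ O) : pr F α S n u b = 0 := by
  have q := (ku_kp d hb fun x _ => ro_pow n b x).c1 d hb
  exact F.iv.cob _ (cup_z2 d a q) (cob_l d q hv e)

theorem pr_congr (e : ∀ x ∈ S, b' x = b x) : pr F α S n u b' = pr F α S n u b := by
  obtain ⟨k, p⟩ := ex_ku d hb n
  rw [pr_eq d a (G_congr d hb e) (p.congr e), pr_eq d a hb p]

theorem pr_triv (hc : c ∈ F.G α S) (e : ∀ x ∈ S, c x ^ pp ^ n = b x) : pr F α S n u b = 0 := by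
  rw [pr_eq d a hb (ku_zero hc e)]
  exact F.iv.cob _ (cup_z2 d a ((ku_zero hc e).c1 d hb)) (b2_of fun _ _ _ _ => by simp [cup])

theorem pr_near {v : AbsoluteValue L ℝ} (hv : IsNonarchimedean v)
    (hρ : ∀ g ∈ F.D, ∀ x ∈ F.A, v (F.ρ g x) = v x) (h : ∀ x ∈ S, v (b x - 1) < v pp ^ (n + 1)) :
    pr F α S n u b = 0 := by
  obtain ⟨c, hc, e⟩ := near_rt d hb hv hρ h
  exact pr_triv d a hb hc fun x hx => (e x hx).1

theorem pr_lev (f : ℕ) : pr F α S (n + f) u b = pr F α S n u b := by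
  obtain ⟨k, p⟩ := ex_ku d hb (n + f)
  rw [pr_eq d a hb p.down, pr_eq d (a.up (Nat.le_add_right n f)) hb p]
  refine congrArg F.ι (funext₂ fun g h => ?_)
  exact sum_congr rfl fun _ _ => by ring

theorem pr_up {m : ℕ} (e : n ≤ m) : pr F α S m u b = pr F α S n u b := by
  obtain ⟨f, rfl⟩ := Nat.exists_eq_add_of_le e
  exact pr_lev d a hb f

/-- weights -/
theorem pr_wt {W : X → ℤ} (hW : ∀ g ∈ F.D, ∀ x ∈ S, W (α g x) = W x) :
    pr F α S n (fun g x => W x * u g x) b = pr F α S n u fun x => b x ^ W x := by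
  obtain ⟨k, p⟩ := ex_ku d hb n
  have q : F.Ku α S n (fun x => b x ^ W x) fun g x => W x * k g x := by
    obtain ⟨β, e, c, t⟩ := p
    refine ⟨fun x => β x ^ W x, fun x hx => ?_, fun x hx => continuousOn_const.mul (c x hx),
      fun g hg x hx => ?_⟩ <;> dsimp only
    · rw [← e x hx, ← zpow_natCast, ← zpow_natCast, ← zpow_mul, ← zpow_mul, mul_comm]
    · rw [map_zpow₀, t g hg x hx, ex_int, map_zpow₀, mul_zpow, hW g hg x hx]
  rw [pr_eq d (c1_wt a hW) hb p, pr_eq d a (G_wt hb hW) q]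
  refine F.iv.congr (cup_z2 d (c1_wt a hW) (p.c1 d hb)) (cup_z2 d a (q.c1 d (G_wt hb hW)))
    fun g hg h hh => O_of (zero_mem O) (sub_eq_zero.2 (sum_congr rfl fun x hx => ?_))
  dsimp only
  rw [hW h hh x hx]; ring

end

/-- **the projection formula** -/
theorem pr_push [DecidableEq X] {π : Y → X} {w : Y → L} (p : Mp F.D α' R α S π) (d : Ds F.D α S)
    (d' : Ds F.D α' R) (a : C1 F.D α S n 1 u) (hw : w ∈ F.G α' R)
    (e : ∀ x ∈ S, b x = ∏ y ∈ R with π y = x, w y) :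
    pr F α' R n (fun g y => u g (π y)) w = pr F α S n u b := by
  obtain ⟨k, r⟩ := ex_ku d' hw n
  have hb := G_push hw p d d' e
  rw [pr_eq d a hb (r.push p d d' e), pr_eq d' (a.pull p) hw r]
  exact F.iv.congr (cup_z2 d' (a.pull p) (r.c1 d' hw)) (cup_z2 d a ((r.push p d d' e).c1 d hb))
    fun g hg h hh => O_of (zero_mem O) (sub_eq_zero.2 (cup_push_r p _ _ hh))

end Vale.Agent.P014X.Rx
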