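import Vale.Agent.P014X.Rx.Fm

/-!
# P014X, block RECX: reduction to the logarithm of the character (helper58)
-/

set_option autoImplicit false
set_option linter.all false

open NumberField Finset
open scoped Classical

noncomputable section

namespace Vale.Agent.P014X.Rx

open Vale.Agent.P014U Vale.Agent.P014U.Sy Vale.Agent.P014U.Sy.Fd
open Vale.Agent.P022 (Qb GQ)
open X4S.Ga (K O)
open X4S.Aq
open X4F.Rc (mq hn hn_mul mq_eq mq_zero)
open Vale.Agent.P004F (hq)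
open P004M.TE (Pt ga ga_mul ga_one)
open P014T.Top (El)
open P014T.Wm (Fx)

variable [Pp] {A B : ℤ} {S₀ : Finset ℕ} {R : Type} [CommRing R] {C : Cm A B S₀ R} (f : R →+ ℤ)
  {X : Type} {D : Subgroup GQ} {α : GQ → X → X} {S : Finset X} {N : ℕ} {ε : X → Bool} {W : X → ℤ}
  {T ρ : X → Pt A B} {c : ℕ} {Θ : Pt A B → Qb} {Z : Multiset Qb} {k₀ : Qb}

theorem ex_inv {u : ℕ} (hu : ¬ pp ∣ u) : ∃ m : ℕ, ∀ (x : Pt A B) (j : ℕ), u • x = 0 →
    pp ^ j • m ^ j • x = x := by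
  obtain ⟨m, hm⟩ := Nat.exists_mul_mod_eq_of_coprime 1 (pp_prime.coprime_iff_not_dvd.2 hu)
    (fun e => hu (e ▸ dvd_zero _))
  refine ⟨m, fun x j e => ?_⟩
  have : pp ^ j * m ^ j ≡ 1 [MOD u] := by
    rw [← mul_pow]; simpa using Nat.ModEq.pow j (show pp * m ≡ 1 [MOD u] from hm.2)
  rw [← mul_smul, nsmul_eq_nsmul_iff_modEq.2 (this.of_dvd (addOrderOf_dvd_of_nsmul_eq_zero e)),
    one_nsmul]

theorem Ev.nsmul {Y : X → Pt A B} (e : Ev D α S Y) (m : ℕ) : Ev D α S fun x => m • Y x :=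
  fun g hg x hx => by rw [map_nsmul, e g hg x hx]

theorem Th.fib (h : El A B) (θ : Th c Θ Z k₀) (k : ℕ) {U Y : Pt A B} (hU : c • U ≠ 0)
    (hY : c • (U + pp ^ k • Y) ≠ 0) :
    ∏ Q ∈ dv h k U, Θ (Q + Y) / Θ Q = Θ (U + pp ^ k • Y) / Θ U := by
  rw [prod_div_distrib, θ.prod h k hU, ← θ.prod h k hY]
  refine congrArg (· / _) (prod_nbij' (· + Y) (· - Y) (fun Q m => ?_) (fun Q m => ?_)
    (fun _ _ => add_sub_cancel_right _ _) (fun _ _ => sub_add_cancel _ _) fun _ _ => rfl) <;>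
    rw [mem_dv] at m ⊢
  · rw [nsmul_add, m]
  · rw [nsmul_sub, m, add_sub_cancel_right]

/-- **reduction** -/
theorem red (h : El A B) (θ : Th c Θ Z k₀) {ι : (GQ → GQ → K) → K ⧸ O} (i : Iv D ι)
    (F : Fa C D α S N ε W T) (N0 : 0 < N) (eρ : Ev D α S ρ) {u : ℕ} (hu : ¬ pp ∣ u)
    (uρ : ∀ x ∈ S, u • ρ x = 0) (z : ∀ x ∈ S, c • (ρ x + T x) ≠ 0) {y y' : Pt A B}
    (hy : y ∈ Fx A B D) (q : pp ^ N • y' = y) (k : ℕ) {v : AbsoluteValue Qb ℝ}
    (hv : IsNonarchimedean v) (vρ : ∀ g ∈ D, ∀ x, v (g x) = v x)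
    (h1 : ∀ x ∈ S, ∀ Q, pp ^ k • Q = ρ x + T x → c • (Q + pp ^ k • y) ≠ 0 ∧
      v (Θ (Q + pp ^ k • y) / Θ Q - 1) < v pp ^ (N + 1))
    (h2 : ∀ x ∈ S, c • (ρ x + T x + pp ^ (k + k) • y) ≠ 0) {V : Pt A B}
    (g : C.Gen (N + k + (N + k)) V) {w L E : ℕ} {κ : K} (o : Lo R w (N + k + (N + k)) L E κ)
    (a : C1 D C.al univ L 1 (La C V κ E f)) :
    (fun b => ∏ x ∈ S with ε x = b,
      (Θ (ρ x + T x + pp ^ (k + k) • y) / Θ (ρ x + T x)) ^ W x) ∈ (fdQ D i).G C.al univ ∧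
    pr (fdQ D i) α S N (ch α (ta C f N ε W T) fun _ => y') (fun x => Θ (ρ x + T x)) =
      -pr (fdQ D i) C.al univ L (La C V κ E f) fun b => ∏ x ∈ S with ε x = b,
        (Θ (ρ x + T x + pp ^ (k + k) • y) / Θ (ρ x + T x)) ^ W x := by
  obtain ⟨m, hm⟩ := ex_inv (A := A) (B := B) hu
  have eY : Ev D α S fun x => ρ x + T x := eρ.add F.ev
  have F' := F.up h N0 eY (eρ.nsmul (m ^ k)) k fun x hx => by
    rw [hm _ k (uρ x hx), add_sub_cancel_left]
  have mc {p : X × Pt A B} (m : p ∈ cv h S k fun x => ρ x + T x) := (mem_cv h).1 m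
  have d' := F'.ds
  choose T' hT using fun p : X × Pt A B => (Ki.pr (hq h)).dvp (N + k) (p.2 - m ^ k • ρ p.1)
  choose Q' hQ using fun p : X × Pt A B => (Ki.pr (hq h)).dvp (N + k) p.2
  let Q : X × Pt A B → Pt A B := fun p => if p.1 ∈ S then T' p + m ^ (N + k) • m ^ k • ρ p.1 else Q' p
  have qQ : pp ^ (N + k) • Q = Prod.snd := funext fun p => by
    simp only [Q, Pi.smul_apply]
    split_ifs with s
    · rw [nsmul_add, hT, hm _ _ (by rw [smul_comm, uρ _ s, nsmul_zero]), sub_add_cancel]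
    · exact hQ p
  have qy : pp ^ (N + k) • (fun _ : X × Pt A B => y') = fun _ => pp ^ k • y := funext fun _ => by
    rw [Pi.smul_apply, add_comm, pow_add, mul_smul, q]
  have es : Ev D (ac α) (cv h S k fun x => ρ x + T x) Prod.snd := fun _ _ _ _ => rfl
  have ey (j : ℕ) {X : Type} {α : GQ → X → X} {S : Finset X} : Ev D α S fun _ => pp ^ j • y :=
    fun g hg _ _ => nsmul_mem hy _ g hg
  have z1 : ∀ p ∈ cv h S k fun x => ρ x + T x, c • p.2 ≠ 0 := fun p m e =>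
    z _ (mc m).1 (by rw [← (mc m).2, smul_comm, e, nsmul_zero])
  have z2 : ∀ p ∈ cv h S k fun x => ρ x + T x, c • (p.2 + pp ^ k • y) ≠ 0 := fun p m =>
    (h1 _ (mc m).1 _ (mc m).2).1
  have two := θ.two h i d' (F'.ch f) qQ qy es (ey k) z1 z2
  have ms := θ.mem i es z1
  have me : (fun p : X × Pt A B => Θ (p.2 + pp ^ k • y) / Θ p.2) ∈ (fdQ D i).G (ac α) _ :=
    G_congr (F := fdQ D i) d' (mul_mem (θ.mem i (es.add (ey k)) z2) (G_inv ms))
      fun _ _ => div_eq_mul_inv _ _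
  have mE : (fun x => Θ (ρ x + T x + pp ^ (k + k) • y) / Θ (ρ x + T x)) ∈ (fdQ D i).G α S :=
    G_congr (F := fdQ D i) F.ds (mul_mem (θ.mem i (eY.add (ey _)) h2) (G_inv (θ.mem i eY z)))
      fun _ _ => div_eq_mul_inv _ _
  have e0 : Ev D α S (pp ^ N • fun _ => y') := fun g hg _ _ => (q ▸ hy) g hg
  have c0 := (ch_c1 F.ds (F.ch f) e0).pull (cv_mp h (n := k) (Y := fun x => ρ x + T x))
  have cy := ch_c1 d' (F'.ch f) (qy ▸ ey k)
  have cQ := ch_c1 d' (F'.ch f) (qQ ▸ es)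
  have dn {b} (hb : b ∈ (fdQ D i).G (ac α) (cv h S k fun x => ρ x + T x)) :=
    (pr_cob (F := fdQ D i) d' cy hb (c0.up (Nat.le_add_right N k)) (v := 0) (fun _ _ => by simp)
      fun g hg p s => by
        have s' := mc (d'.mem g hg p s)
        have e : pp ^ k • ((ac α g p).2 - m ^ k • ρ (α g p.1)) = T (α g p.1) := by
          rw [nsmul_sub, s'.2, hm _ _ (uρ (α g p.1) s'.1)]; exact add_sub_cancel_left _ _
        have := tb_up f N0 k (e ▸ F.gen _ s'.1) (e0.tor hg (mc s).1) (ε (α g p.1)) (W (α g p.1))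
        rw [e] at this
        exact O_of this ((congrArg _ (sub_self (0 : K))).trans (sub_zero _))).trans (pr_lev (F := fdQ D i) d' c0 hb k)
  obtain ⟨t, t1, t2⟩ := F'.la f (Nat.add_pos_left N0 k) (funext hT) g o
  have cW := c1_wt (F := fdQ D i) (a.pull F.mp) F.wt
  have le : N + k ≤ L := (Nat.le_add_right _ _).trans o.le
  have mW := G_wt mE F.wt
  rw [dn ms, dn me, θ.up h i F.ds (ch_c1 F.ds (F.ch f) e0) eY z, pr_near (F := fdQ D i) d' c0 me hv
    (fun g hg x _ => vρ g hg x) (fun p s => (h1 _ (mc s).1 _ (mc s).2).2), sub_zero,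
    ← pr_up (F := fdQ D i) d' cQ me le, pr_cob (F := fdQ D i) d' (cQ.up le) me
      (cW.pull (cv_mp h)) t1 fun g hg p s => O_of (t2 g hg p s) (by
        have s' := (mc (d'.mem g hg p s)).1
        simp only [ch, Q, if_pos (mc s).1, if_pos s', map_add, map_nsmul, eρ g hg _ (mc s).1]
        rw [show (ac α g p).1 = α g p.1 from rfl, add_sub_add_right_eq_sub]),
    pr_push (F := fdQ D i) (cv_mp h) F.ds d' cW me fun x hx => by
      rw [cv_fib h hx fun Q => Θ (Q + pp ^ k • y) / Θ Q, θ.fib h k (z x hx) (by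
        rw [← mul_smul, ← pow_add]; exact h2 x hx), ← mul_smul, ← pow_add],
    pr_wt (F := fdQ D i) F.ds (a.pull F.mp) mE F.wt,
    pr_push (F := fdQ D i) F.mp (C.ds D) F.ds a mW fun _ _ => rfl] at two
  exact ⟨G_push (F := fdQ D i) mW F.mp (C.ds D) F.ds fun _ _ => rfl, two⟩

end Vale.Agent.P014X.Rx
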