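import Vale.Agent.P014X.Rx.Cm

/-!
# P014X, block RECX: the Steinberg relation on the curve (helper58)
-/

set_option autoImplicit false
set_option linter.all false

open NumberField Finset
open scoped Classical

noncomputable section

namespace Vale.Agent.P014X.Rx

open Vale.Agent.P014U Vale.Agent.P014U.Sy Vale.Agent.P014U.Sy.Fd
open Vale.Agent.P022 (Qb GQ)
open X4S.Ga (K O)
open X4S.Aq
open X4F.Rc (mq hn hn_mul mq_eq mq_zero)
open Vale.Agent.P004F (hq)
open P004M.TE (Pt ga ga_mul ga_one)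
open Cp (lc_ga)
open P014T.Top (El)

variable [Pp] {A B : ℤ} {X : Type} {D : Subgroup GQ} {α : GQ → X → X} {S : Finset X} {n : ℕ}
  {τ : X → Pt A B → K} {Y Y' Z' : X → Pt A B} {a b : Pt A B} {x : X}

/-- equivariant families of characters of the points of order `pp ^ n` -/
structure Ch (D : Subgroup GQ) (α : GQ → X → X) (S : Finset X) (n : ℕ) (τ : X → Pt A B → K) :
    Prop where
  add : ∀ x ∈ S, ∀ a b, pp ^ n • a = 0 → pp ^ n • b = 0 → τ x (a + b) - τ x a - τ x b ∈ O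
  eq : ∀ g ∈ D, ∀ x ∈ S, ∀ a, pp ^ n • a = 0 → τ (α g x) (ga g a) - τ x a ∈ O

/-- equivariant families of points -/
def Ev (D : Subgroup GQ) (α : GQ → X → X) (S : Finset X) (Y : X → Pt A B) : Prop :=
  ∀ g ∈ D, ∀ x ∈ S, ga g (Y x) = Y (α g x)

/-- the Kummer character -/
def ch (α : GQ → X → X) (τ : X → Pt A B → K) (Y' : X → Pt A B) (g : GQ) (x : X) : K :=
  τ (α g x) (ga g (Y' x) - Y' (α g x))

theorem Ch.nsmul (t : Ch D α S n τ) (hx : x ∈ S) (ha : pp ^ n • a = 0) (m : ℕ) :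
    τ x (m • a) - m * τ x a ∈ O := by
  induction m with
  | zero =>
    have := t.add x hx 0 0 (nsmul_zero _) (nsmul_zero _)
    rw [add_zero] at this
    exact O_of (neg_mem this) (by rw [zero_nsmul]; ring)
  | succ m ih =>
    have := t.add x hx (m • a) a (by rw [smul_comm, ha, nsmul_zero]) ha
    exact O_of (add_mem this ih) (by rw [succ_nsmul]; push_cast; ring)

theorem Ch.zero (t : Ch D α S n τ) (hx : x ∈ S) : τ x 0 ∈ O := by
  simpa using t.nsmul hx (nsmul_zero _) 0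

theorem Ch.lev (t : Ch D α S n τ) (hx : x ∈ S) (ha : pp ^ n • a = 0) : (pp : K) ^ n * τ x a ∈ O := by
  have := t.nsmul hx ha (pp ^ n)
  rw [ha] at this
  exact O_of (sub_mem (t.zero hx) this) (by push_cast; ring)

theorem Ev.tor (e : Ev D α S (pp ^ n • Y')) {g : GQ} (hg : g ∈ D) (hx : x ∈ S) :
    pp ^ n • (ga g (Y' x) - Y' (α g x)) = 0 := by
  rw [nsmul_sub, ← map_nsmul, sub_eq_zero]; exact e g hg x hx

theorem Ev.add (e : Ev D α S Y) (e' : Ev D α S Y') : Ev D α S (Y + Y') := fun g hg x hx => by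
  rw [Pi.add_apply, map_add, e g hg x hx, e' g hg x hx, Pi.add_apply]

theorem ch_c1 (d : Ds D α S) (t : Ch D α S n τ) (e : Ev D α S (pp ^ n • Y')) :
    C1 D α S n 1 (ch α τ Y') where
  cont x hx := ((d.lc x hx).two (Lc.of_lc (lc_ga (Y' x))) fun u v => τ u (v - Y' u)).cont
  lev g hg x hx := t.lev (d.mem g hg x hx) (e.tor hg hx)
  coc g hg h hh x hx := by
    have m := d.mem h hh x hx
    have p := t.add _ (d.mem g hg _ m) _ _ (Ki.tor_map (ρ := ga) (e.tor hh hx) g) (e.tor hg m)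
    have q := t.eq g hg _ m _ (e.tor hh hx)
    rw [map_sub] at p q
    rw [sub_add_sub_cancel, ← ga_mul] at p
    rw [← ga_mul] at q
    exact O_of (add_mem p q) (by simp only [ch, d.mul g hg h hh x hx, MonoidHom.one_apply]; ring)

theorem ch_add (d : Ds D α S) (t : Ch D α S n τ) (e : Ev D α S (pp ^ n • Y'))
    (e' : Ev D α S (pp ^ n • Z')) {g : GQ} (hg : g ∈ D) (hx : x ∈ S) :
    ch α τ (Y' + Z') g x - (ch α τ Y' g x + ch α τ Z' g x) ∈ O :=
  O_of (t.add _ (d.mem g hg x hx) _ _ (e.tor hg hx) (e'.tor hg hx)) (by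
    simp only [ch, Pi.add_apply, map_add, add_sub_add_comm]; ring)

/-! ## division points -/

section

variable (h : El A B)
include h

theorem fin_dv (n : ℕ) (U : Pt A B) : {Q : Pt A B | pp ^ n • Q = U}.Finite := by
  obtain ⟨Q, rfl⟩ := (Ki.pr (hq h)).dvp n U
  have : Finite (P025H816.tors (Pt A B) (pp ^ n)) := Nat.finite_of_card_ne_zero (by
    rw [X4M.TE.card_pow (hq h)]; exact pow_ne_zero _ (pow_ne_zero _ pp_ne))
  refine (Set.finite_range fun T : P025H816.tors (Pt A B) (pp ^ n) => Q + T.1).subset fun Q' e => ?_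
  exact ⟨⟨Q' - Q, by
    change pp ^ n • (Q' - Q) = 0
    rw [nsmul_sub, sub_eq_zero]; exact e⟩, add_sub_cancel _ _⟩

/-- the division points -/
def dv (n : ℕ) (U : Pt A B) : Finset (Pt A B) := (fin_dv h n U).toFinset

theorem mem_dv {U Q : Pt A B} : Q ∈ dv h n U ↔ pp ^ n • Q = U := Set.Finite.mem_toFinset _

variable {c : ℕ} {Θ : Pt A B → Qb} {Z : Multiset Qb} {k : Qb} (θ : Th c Θ Z k)

include θ in
theorem Th.prod (n : ℕ) {U : Pt A B} (hU : c • U ≠ 0) : ∏ Q ∈ dv h n U, Θ Q = Θ U := by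
  induction n with
  | zero => rw [show dv h 0 U = {U} from ext fun Q => by simp [mem_dv], prod_singleton]
  | succ n ih =>
    rw [← ih, ← prod_fiberwise_of_maps_to (g := (pp • ·)) (t := dv h n U) fun Q m => by
      rwa [mem_dv, ← mul_smul, ← pow_succ, ← mem_dv h]]
    refine prod_congr rfl fun Q m => ?_
    obtain ⟨Q, rfl⟩ := (Ki.pr (hq h)).dv Q
    rw [mem_dv] at m
    rw [← θ.dis Q (dv h 1 0) (fun T => by rw [mem_dv, pow_one]) fun z => hU (by
      rw [← m, smul_comm, z, nsmul_zero])]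
    refine prod_nbij' (· - Q) (Q + ·) (fun T u => ?_) (fun T u => ?_) (fun _ _ => add_sub_cancel _ _)
      (fun _ _ => add_sub_cancel_left _ _) fun _ _ => by rw [add_sub_cancel]
    · rw [mem_dv, pow_one, nsmul_sub, (mem_filter.1 u).2, sub_self]
    · rw [mem_dv, pow_one] at u
      have : pp • (Q + T) = pp • Q := by rw [nsmul_add, u, add_zero]
      exact mem_filter.2 ⟨by rw [mem_dv, pow_succ, mul_smul, this, m], this⟩

/-- the cover by division points -/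
def cv (S : Finset X) (n : ℕ) (Y : X → Pt A B) : Finset (X × Pt A B) :=
  S.biUnion fun x => (dv h n (Y x)).image (Prod.mk x)

theorem mem_cv {p : X × Pt A B} : p ∈ cv h S n Y ↔ p.1 ∈ S ∧ pp ^ n • p.2 = Y p.1 := by
  simp only [cv, mem_biUnion, mem_image, mem_dv]
  exact ⟨fun ⟨x, h, y, e, q⟩ => q ▸ ⟨h, e⟩, fun h => ⟨p.1, h.1, p.2, h.2, rfl⟩⟩

omit h in
/-- the action on the cover -/
def ac (α : GQ → X → X) (g : GQ) (p : X × Pt A B) : X × Pt A B := (α g p.1, ga g p.2)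

theorem cv_ds (d : Ds D α S) (e : Ev D α S Y) : Ds D (ac α) (cv h S n Y) :=
  ⟨fun g hg p m => (mem_cv h).2 ⟨d.mem g hg _ ((mem_cv h).1 m).1, by
    rw [ac, ← map_nsmul, ((mem_cv h).1 m).2, e g hg _ ((mem_cv h).1 m).1]⟩,
    fun p m => Prod.ext (d.one _ ((mem_cv h).1 m).1) (ga_one _),
    fun g hg j hj p m => Prod.ext (d.mul g hg j hj _ ((mem_cv h).1 m).1) (ga_mul _ _ _),
    fun p m => (d.lc _ ((mem_cv h).1 m).1).two (Lc.of_lc (lc_ga p.2)) Prod.mk⟩

theorem cv_mp : Mp D (ac α) (cv h S n Y) α S Prod.fst :=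
  ⟨fun _ m => ((mem_cv h).1 m).1, fun _ _ _ _ => rfl⟩

theorem cv_fib {M : Type} [CommMonoid M] (hx : x ∈ S) (φ : Pt A B → M) :
    ∏ p ∈ cv h S n Y with p.1 = x, φ p.2 = ∏ Q ∈ dv h n (Y x), φ Q :=
  prod_nbij' Prod.snd (Prod.mk x) (fun p m => (mem_dv h).2
    ((mem_filter.1 m).2 ▸ ((mem_cv h).1 (mem_filter.1 m).1).2))
    (fun Q m => mem_filter.2 ⟨(mem_cv h).2 ⟨hx, (mem_dv h).1 m⟩, rfl⟩)
    (fun p m => Prod.ext (mem_filter.1 m).2.symm rfl) (fun _ _ => rfl) fun _ _ => rfl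

omit h
include θ

theorem Th.nz (u : c • a ≠ 0) : Θ a ≠ 0 := fun z => θ.ne (by rw [← θ.eq a u, z, zero_mul])

variable {ι : (GQ → GQ → K) → K ⧸ O} (i : Iv D ι)

theorem Th.mem (e : Ev D α S Y) (u : ∀ x ∈ S, c • Y x ≠ 0) :
    (fun x => Θ (Y x)) ∈ (fdQ D i).G α S := fun x hx =>
  ⟨θ.nz (u x hx), trivial, fun g hg => (θ.gal g _ (u x hx)).trans (congrArg Θ (e g hg x hx))⟩

include h

/-- going up -/
theorem Th.up {u : GQ → X → K} (d : Ds D α S) (a : C1 D α S n 1 u) (e : Ev D α S Y)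
    (z : ∀ x ∈ S, c • Y x ≠ 0) (m : ℕ) :
    pr (fdQ D i) (ac α) (cv h S m Y) n (fun g p => u g p.1) (fun p => Θ p.2) =
      pr (fdQ D i) α S n u fun x => Θ (Y x) :=
  pr_push (F := fdQ D i) (cv_mp h) d (cv_ds h d e) a (θ.mem i (fun _ _ _ _ => rfl) fun p q w =>
    z _ ((mem_cv h).1 q).1 (by rw [← ((mem_cv h).1 q).2, smul_comm, w, nsmul_zero]))
    fun x hx => by rw [cv_fib h hx, θ.prod h m (z x hx)]

/-- **the Steinberg relation** -/
theorem Th.stb (d : Ds D α S) (t : Ch D α S n τ) (e : Ev D α S (pp ^ n • Y'))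
    (z : ∀ x ∈ S, c • (pp ^ n • Y') x ≠ 0) :
    pr (fdQ D i) α S n (ch α τ Y') (fun x => Θ ((pp ^ n • Y') x)) = 0 := by
  have r {p : X × Pt A B} (q : p ∈ cv h S n (pp ^ n • Y')) : pp ^ n • (Y' p.1 - p.2) = 0 := by
    rw [nsmul_sub, ((mem_cv h).1 q).2, Pi.smul_apply, sub_self]
  refine (θ.up h i d (ch_c1 d t e) e z n).symm.trans (pr_zero (F := fdQ D i) (cv_ds h d e)
    ((ch_c1 d t e).pull (cv_mp h)) (θ.mem i (fun _ _ _ _ => rfl) fun p q w =>
    z _ ((mem_cv h).1 q).1 ((congrArg (c • ·) ((mem_cv h).1 q).2).symm.trans (by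
      rw [smul_comm, w, nsmul_zero])))
    (v := fun p => τ p.1 (Y' p.1 - p.2)) (fun p q => t.lev ((mem_cv h).1 q).1 (r q))
    fun g hg p q => ?_)
  have m := ((mem_cv h).1 q).1
  have p1 := t.add _ (d.mem g hg _ m) _ _ (e.tor hg m) (r ((cv_ds h d e).mem g hg p q))
  have p2 := t.eq g hg _ m _ (r q)
  rw [map_sub] at p2
  simp only [ac, sub_add_sub_cancel] at p1
  exact O_of (sub_mem p2 p1) (by simp only [ch, ac]; ring)

/-- the relation for a point and its translate -/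
theorem Th.two {V : X → Pt A B} (d : Ds D α S) (t : Ch D α S n τ) (q : pp ^ n • Y' = Y)
    (q' : pp ^ n • Z' = V) (e : Ev D α S Y) (e' : Ev D α S V) (z : ∀ x ∈ S, c • Y x ≠ 0)
    (z' : ∀ x ∈ S, c • (Y x + V x) ≠ 0) :
    pr (fdQ D i) α S n (ch α τ Z') (fun x => Θ (Y x)) =
      -pr (fdQ D i) α S n (ch α τ Y') (fun x => Θ (Y x + V x) / Θ (Y x)) -
        pr (fdQ D i) α S n (ch α τ Z') fun x => Θ (Y x + V x) / Θ (Y x) := by
  have m := θ.mem i e z
  have m' := θ.mem i (e.add e') z'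
  have mq : (fun x => Θ (Y x + V x) / Θ (Y x)) ∈ (fdQ D i).G α S :=
    G_congr (F := fdQ D i) d (mul_mem m' (G_inv m)) fun _ _ => div_eq_mul_inv _ _
  subst q q'
  have s : Ev D α S (pp ^ n • (Y' + Z')) := (smul_add (pp ^ n) Y' Z').symm ▸ e.add e'
  have k := θ.stb h i d t s (smul_add (pp ^ n) Y' Z' ▸ z')
  have k' := θ.stb h i d t e z
  have mm := mul_mem m mq
  rw [pr_congr (F := fdQ D i) d (ch_c1 d t s) mm fun x hx => by
      rw [nsmul_add]; exact (mul_div_cancel₀ _ (θ.nz (z x hx))).symm,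
    pr_cob (F := fdQ D i) d (ch_c1 d t s) mm ((ch_c1 d t e).add (ch_c1 d t e')) (v := 0)
    (fun _ _ => by simp) (fun g hg x hx => O_of (ch_add d t e e' hg hx) (by simp)),
    pr_addl (F := fdQ D i) d (ch_c1 d t e) mm (ch_c1 d t e'),
    pr_mul (F := fdQ D i) d (ch_c1 d t e) m mq, pr_mul (F := fdQ D i) d (ch_c1 d t e') m mq, k',
    zero_add] at k
  exact eq_sub_of_add_eq (eq_neg_of_add_eq_zero_right k)

end

end Vale.Agent.P014X.Rx
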